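import Crest.Agent.Lib.BSp.Ten
import Crest.Agent.Lib.PSD.Fast

/-! # Lib/BSp/Chk (owner helper92): kernel checker for B-spline control matrices with nested knots, definitions. -/

set_option autoImplicit false

namespace Crest.Agent.BSp

open Crest.Agent.PSD Finset

/-- monomials of a quadratic form in five unknowns, lower triangle by rows -/
def xi (x : ℕ → ℝ) : ℕ → ℝ
  | 0 => x 0 * x 0
  | 1 => 2 * (x 1 * x 0)
  | 2 => x 1 * x 1
  | 3 => 2 * (x 2 * x 0)
  | 4 => 2 * (x 2 * x 1)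
  | 5 => x 2 * x 2
  | 6 => 2 * (x 3 * x 0)
  | 7 => 2 * (x 3 * x 1)
  | 8 => 2 * (x 3 * x 2)
  | 9 => x 3 * x 3
  | 10 => 2 * (x 4 * x 0)
  | 11 => 2 * (x 4 * x 1)
  | 12 => 2 * (x 4 * x 2)
  | 13 => 2 * (x 4 * x 3)
  | 14 => x 4 * x 4
  | _ => 0

/-- lower triangle to full symmetric matrix -/
def dupL {α : Type} : List α → List α
  | [a11, a21, a22, a31, a32, a33, a41, a42, a43, a44, a51, a52, a53, a54, a55] =>
    [a11, a21, a31, a41, a51, a21, a22, a32, a42, a52, a31, a32, a33, a43, a53, a41, a42, a43, a44, a54,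
      a51, a52, a53, a54, a55]
  | _ => []

/-- natural weights as integers -/
def iw (w : List ℕ) : List ℤ := w.map Int.ofNat

/-! ## kernel functions -/

noncomputable def dotN (w A : List ℕ) : ℕ :=
  @List.rec ℕ (fun _ => List ℕ → ℕ) (fun _ => 0)
    (fun a _ ih B => @List.rec ℕ (fun _ => ℕ) 0 (fun b B' _ => Nat.add (Nat.mul a b) (ih B')) B) w A

noncomputable def forceL (l : List ℕ) (k : List ℕ → Bool) : Bool :=
  @List.rec ℕ (fun _ => (List ℕ → Bool) → Bool) (fun k => k [])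
    (fun a _ ih k => frc a fun x => ih fun r => k (x :: r)) l k

noncomputable def ctr1 (w : List ℕ) (A : List (List ℕ)) (k : List ℕ → Bool) : Bool :=
  @List.rec (List ℕ) (fun _ => (List ℕ → Bool) → Bool) (fun k => k [])
    (fun a _ ih k => frc (dotN w a) fun x => ih fun r => k (x :: r)) A k

noncomputable def ctr2 (w : List ℕ) (A : List (List (List ℕ))) (k : List (List ℕ) → Bool) : Bool :=
  @List.rec (List (List ℕ)) (fun _ => (List (List ℕ) → Bool) → Bool) (fun k => k [])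
    (fun a _ ih k => ctr1 w a fun x => ih fun r => k (x :: r)) A k

noncomputable def allL (ws : List (List ℕ)) (f : List ℕ → Bool) : Bool :=
  @List.rec (List ℕ) (fun _ => Bool) true (fun w _ ih => andB (f w) ih) ws

/-- loop with one base-16 digit per element -/
noncomputable def allD (ws : List (List ℕ)) (f : List ℕ → ℕ → Bool) (D : ℕ) : Bool :=
  @List.rec (List ℕ) (fun _ => ℕ → Bool) (fun _ => true)
    (fun w _ ih D => andB (frc (Nat.land D 15) fun i => f w i) (frc (Nat.shiftRight D 4) ih)) ws D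

noncomputable def nth (M0 : List (List ℕ)) (M : List (List (List ℕ))) (i : ℕ) : List (List ℕ) :=
  @List.rec (List (List ℕ)) (fun _ => ℕ → List (List ℕ)) (fun _ => M0)
    (fun a _ ih i => @Nat.rec (fun _ => List (List ℕ)) a (fun j _ => ih j) i) M i

/-- the `K` lowest lanes, then a final `1` -/
noncomputable def unp (W m K X : ℕ) (k : List ℕ → Bool) : Bool :=
  @Nat.rec (fun _ => ℕ → (List ℕ → Bool) → Bool) (fun _ k => k [1])
    (fun _ ih X k => frc (Nat.land X m) fun t => frc (Nat.shiftRight X W) fun Y => ih Y fun r => k (t :: r)) K X k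

def cslN (u : ℕ) : ℕ → List ℕ → List ℕ
  | p, [] => [u * p]
  | p, a :: l => (a + u * p) :: cslN u a l

def esyN : List ℕ → List ℕ
  | [] => [1]
  | u :: l => cslN u 0 (esyN l)

/-- weights of a window -/
def wN (sc win : List ℕ) : List ℕ := List.zipWith (· * ·) sc (esyN win)

noncomputable def wF (sc win : List ℕ) (k : List ℕ → Bool) : Bool :=
  @List.rec ℕ (fun _ => (List ℕ → Bool) → Bool) (fun k => k [1])
    (fun u _ ih k => ih fun l => forceL (cslN u 0 l) k) win fun e => forceL (List.zipWith (· * ·) sc e) k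

/-- all windows of length `d` -/
def wds (d : ℕ) : List ℕ → List (List ℕ)
  | [] => []
  | a :: l => if d ≤ l.length + 1 then (a :: l).take d :: wds d l else []

/-- clamped knot list -/
def clamp (d Q : ℕ) (inner : List ℕ) : List ℕ := List.replicate d 0 ++ inner ++ List.replicate d Q

def srtN : List ℕ → Bool
  | a :: b :: l => Nat.ble a b && srtN (b :: l)
  | _ => true

/-- scales `L / choose d k * Q ^ (d - k)` -/
def scN (d Q L : ℕ) : List ℕ := (List.range (d + 1)).map fun k => L / d.choose k * Q ^ (d - k)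

def scOk (d Q L : ℕ) : Bool :=
  decide (0 < d) && decide (0 < Q) && decide (0 < L) && (List.range (d + 1)).all fun k => L % d.choose k == 0

/-- the weights of all windows of a clamped knot list -/
def net (d Q L : ℕ) (inner : List ℕ) : List (List ℕ) := (wds d (clamp d Q inner)).map (wN (scN d Q L))

/-- kernel parameters -/
structure Kp where
  pt : ℕ → Bool
  WT : ℕ
  mT : ℕ
  bT : ℕ
  K : ℕ
  TP : List (List (List ℕ))
  SP : List (List (List ℕ))
  U0 : List (List ℕ)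
  MU : List (List (List ℕ))
  V0 : List (List ℕ)
  MV : List (List (List ℕ))
  s1 : List ℕ
  s2 : List ℕ
  s3 : List ℕ

/-- one table point: `X` packs the `K` control values, `D` holds the menu digits -/
noncomputable def lpI (pt : ℕ → Bool) (WT mT bT K : ℕ) (SP : List (List (List ℕ))) (U0 : List (List ℕ))
    (MU : List (List (List ℕ))) (V0 : List (List ℕ)) (MV : List (List (List ℕ))) (X D : ℕ) : Bool :=
  unp WT mT K (Nat.add X bT) fun t => ctr2 t SP fun B =>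
    allD (nth U0 MU (Nat.land D 15)) (fun w i => ctr1 w B fun A => allL (nth V0 MV i) fun w' => pt (dotN w' A))
      (Nat.shiftRight D 4)

/-- a chunk: windows `a` (first variable), `b` (second), and a list of (window of the third variable, digits) -/
noncomputable def chk (p : Kp) (a b : List ℕ) (L : List (List ℕ × ℕ)) : Bool :=
  wF p.s1 a fun w1 => wF p.s2 b fun w2 => ctr2 w1 p.TP fun A2 => ctr1 w2 A2 fun A1 =>
    @List.rec (List ℕ × ℕ) (fun _ => Bool) true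
      (fun c _ ih => andB (wF p.s3 c.1 fun w3 =>
        lpI p.pt p.WT p.mT p.bT p.K p.SP p.U0 p.MU p.V0 p.MV (dotN w3 A1) c.2) ih) L

/-! ## packing -/

/-- `∑ l k * 2 ^ (W k)` -/
def pz (W : ℕ) : List ℤ → ℤ
  | [] => 0
  | a :: l => a + 2 ^ W * pz W l

def g2 (S : L2) (a b : ℕ) : ℤ := (S.getD a []).getD b 0
def g3 (T : L3) (i j m : ℕ) : ℤ := ((T.getD i []).getD j []).getD m 0

/-- layout third > second > first variable, lanes = index `k` -/
def mkTP (d1 d2 d3 WT : ℕ) (M : List (L3 × List L2)) : List (List (List ℕ)) :=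
  (List.range (d3 + 1)).map fun m => (List.range (d2 + 1)).map fun j => (List.range (d1 + 1)).map fun i =>
    (pz WT (M.map fun p => g3 p.1 i j m) % 2 ^ (WT * M.length)).toNat

/-- layout fifth > fourth variable > index `k` (plus the bias correction), lanes = the 25 entries -/
def mkSP (d4 d5 WT W : ℕ) (M : List (L3 × List L2)) : List (List (List ℕ)) :=
  (List.range (d5 + 1)).map fun b => (List.range (d4 + 1)).map fun a =>
    (M.map fun p => (pz W (dupL (p.2.map fun S => g2 S a b)) % 2 ^ (W * 25)).toNat) ++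
      [(-(2 ^ (WT - 1)) * (M.map fun p => pz W (dupL (p.2.map fun S => g2 S a b))).sum % 2 ^ (W * 25)).toNat]

def n1 (l : L1) : ℕ := (l.map Int.natAbs).sum
def n2 (l : L2) : ℕ := (l.map n1).sum
def n3 (l : L3) : ℕ := (l.map n2).sum

/-! ## specifications -/

/-- weights of degree `d`, bounded by `c` -/
def Wt (d c : ℕ) (w : List ℕ) : Prop := w.length = d + 1 ∧ ∀ a ∈ w, a ≤ c

/-- a control net for `[0, 1]` -/
def Net (d c : ℕ) (ws : List (List ℕ)) : Prop :=
  (∀ w ∈ ws, Wt d c w) ∧ ∀ P : (ℕ → ℝ) → Prop, Cv P → (∀ w ∈ ws, P (rl (iw w))) → ∀ x : ℝ, 0 ≤ x → x ≤ 1 →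
    ∃ ω, P ω ∧ ∀ k ≤ d, ω k = (c : ℝ) * x ^ k

def PtOk (W : ℕ) (pt : ℕ → Bool) : Prop :=
  ∀ (X : ℕ) (v : List ℤ), v.length = 15 → (∀ a ∈ v, |a| < 2 ^ (W - 1)) → (X : ℤ) ≡ pz W (dupL v) [ZMOD 2 ^ (W * 25)] →
    pt X = true → ∀ x : ℕ → ℝ, 0 ≤ dw (fun a : ℤ => (a : ℝ)) (xi x) v

/-- entries of a control matrix -/
def ent (τ : L3 → ℤ) (σ : L2 → ℤ) (M : List (L3 × List L2)) : List ℤ :=
  (List.range 15).map fun e => (M.map fun p => τ p.1 * σ (p.2.getD e [])).sum

variable (M : List (L3 × List L2))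
def G3 (w1 w2 w3 : List ℕ) : Prop := ∀ (v w : ℝ), 0 ≤ v → v ≤ 1 → 0 ≤ w → w ≤ 1 → ∀ x : ℕ → ℝ,
  0 ≤ frm (fun T => (c3 (iw w1) (iw w2) (iw w3) T : ℝ)) (ev2 v w) (xi x) M
def G2 (w1 w2 : List ℕ) : Prop := ∀ (q v w : ℝ), 0 ≤ q → q ≤ 1 → 0 ≤ v → v ≤ 1 → 0 ≤ w → w ≤ 1 → ∀ x : ℕ → ℝ,
  0 ≤ frm (dw (dw (ev1 q) (rl (iw w2))) (rl (iw w1))) (ev2 v w) (xi x) M
def G1 (w1 : List ℕ) : Prop := ∀ (y q v w : ℝ), 0 ≤ y → y ≤ 1 → 0 ≤ q → q ≤ 1 → 0 ≤ v → v ≤ 1 → 0 ≤ w → w ≤ 1 →
  ∀ x : ℕ → ℝ, 0 ≤ frm (dw (ev2 y q) (rl (iw w1))) (ev2 v w) (xi x) M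
def G0 : Prop := ∀ (s y q v w : ℝ), 0 ≤ s → s ≤ 1 → 0 ≤ y → y ≤ 1 → 0 ≤ q → q ≤ 1 → 0 ≤ v → v ≤ 1 → 0 ≤ w → w ≤ 1 →
  ∀ x : ℕ → ℝ, 0 ≤ frm (ev3 s y q) (ev2 v w) (xi x) M

/-- degree, knot denominator and binomial multiple of one variable -/
structure Dg where
  d : ℕ
  Q : ℕ
  L : ℕ

def Dg.c (a : Dg) : ℕ := a.L * a.Q ^ a.d
def Dg.ok (a : Dg) : Bool := scOk a.d a.Q a.L
def Dg.sc (a : Dg) : List ℕ := scN a.d a.Q a.L
def Dg.net (a : Dg) (inner : List ℕ) : List (List ℕ) := BSp.net a.d a.Q a.L inner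
/-- a window: `d` knots in `[0, Q]` -/
def Dg.win (a : Dg) (l : List ℕ) : Bool := Nat.beq l.length a.d && l.all fun t => Nat.ble t a.Q
def Dg.kn (a : Dg) (inner : List ℕ) : Bool := srtN (clamp a.d a.Q inner)

/-- size conditions -/
def szOk (a1 a2 a3 a4 a5 : Dg) (WT W : ℕ) : Bool :=
  a1.ok && a2.ok && a3.ok && a4.ok && a5.ok && fitT a1.d a2.d a3.d M && fitS a4.d a5.d M &&
    decide (0 < WT) && decide (0 < W) && (M.all fun p => Nat.beq p.2.length 15) &&
    (M.all fun p => Nat.blt (a1.c * a2.c * a3.c * n3 p.1) (2 ^ (WT - 1))) &&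
    (List.range 15).all fun e =>
      Nat.blt (a1.c * a2.c * a3.c * (a4.c * a5.c) * (M.map fun p => n3 p.1 * n2 (p.2.getD e [])).sum) (2 ^ (W - 1))

structure Kp.Ok (p : Kp) (a1 a2 a3 a4 a5 : Dg) (W : ℕ) : Prop where
  sz : szOk M a1 a2 a3 a4 a5 p.WT W = true
  pt : PtOk W p.pt
  mT : p.mT = 2 ^ p.WT - 1
  K : p.K = M.length
  bT : (p.bT : ℤ) = pz p.WT (M.map fun _ => 2 ^ (p.WT - 1))
  TP : p.TP = mkTP a1.d a2.d a3.d p.WT M
  SP : p.SP = mkSP a4.d a5.d p.WT W M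
  U0 : Net a4.d a4.c p.U0
  MU : ∀ u ∈ p.MU, Net a4.d a4.c u
  V0 : Net a5.d a5.c p.V0
  MV : ∀ u ∈ p.MV, Net a5.d a5.c u
  s1 : p.s1 = a1.sc
  s2 : p.s2 = a2.sc
  s3 : p.s3 = a3.sc

end Crest.Agent.BSp
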