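import Crest.Agent.Lib.BSp.Chk

/-! # Lib/BSp/ChkA : equations of the kernel loops -/

set_option autoImplicit false

namespace Crest.Agent.BSp

open Crest.Agent.PSD Finset

theorem dotN_cast (w A : List ℕ) : (dotN w A : ℤ) = di (fun a : ℕ => (a : ℤ)) (iw w) A := by
  induction w generalizing A with
  | nil => cases A <;> rfl
  | cons a w ih =>
    cases A with
    | nil => rfl
    | cons b B =>
      have e : dotN (a :: w) (b :: B) = a * b + dotN w B := rfl
      have e2 : di (fun a : ℕ => (a : ℤ)) (iw (a :: w)) (b :: B) =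
          (a : ℤ) * b + di (fun a : ℕ => (a : ℤ)) (iw w) B := rfl
      rw [e, e2, ← ih B]
      push_cast
      rfl

theorem forceL_eq (l : List ℕ) (k : List ℕ → Bool) : forceL l k = k l := by
  induction l generalizing k with
  | nil => rfl
  | cons a l ih =>
    have e : forceL (a :: l) k = frc a fun x => forceL l fun r => k (x :: r) := rfl
    rw [e, frc_eq, ih]

theorem ctr1_eq (w : List ℕ) (A : List (List ℕ)) (k : List ℕ → Bool) : ctr1 w A k = k (A.map (dotN w)) := by
  induction A generalizing k with
  | nil => rfl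
  | cons a l ih =>
    have e : ctr1 w (a :: l) k = frc (dotN w a) fun x => ctr1 w l fun r => k (x :: r) := rfl
    rw [e, frc_eq, ih, List.map_cons]

theorem ctr2_eq (w : List ℕ) (A : List (List (List ℕ))) (k : List (List ℕ) → Bool) :
    ctr2 w A k = k (A.map fun B => B.map (dotN w)) := by
  induction A generalizing k with
  | nil => rfl
  | cons a l ih =>
    have e : ctr2 w (a :: l) k = ctr1 w a fun x => ctr2 w l fun r => k (x :: r) := rfl
    rw [e, ctr1_eq, ih, List.map_cons]

theorem allL_s {ws : List (List ℕ)} {f : List ℕ → Bool} (h : allL ws f = true) : ∀ w ∈ ws, f w = true := by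
  induction ws with
  | nil => intro w hw; cases hw
  | cons a l ih =>
    have e : allL (a :: l) f = andB (f a) (allL l f) := rfl
    rw [e, andB_eq, Bool.and_eq_true] at h
    intro w hw
    rcases List.mem_cons.1 hw with rfl | hw
    · exact h.1
    · exact ih h.2 w hw

theorem allD_s {ws : List (List ℕ)} {f : List ℕ → ℕ → Bool} {D : ℕ} (h : allD ws f D = true) :
    ∀ w ∈ ws, ∃ i, f w i = true := by
  induction ws generalizing D with
  | nil => intro w hw; cases hw
  | cons a l ih =>
    have e : allD (a :: l) f D =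
        andB (frc (Nat.land D 15) fun i => f a i) (frc (Nat.shiftRight D 4) (allD l f)) := rfl
    rw [e, andB_eq, Bool.and_eq_true, frc_eq, frc_eq] at h
    intro w hw
    rcases List.mem_cons.1 hw with rfl | hw
    · exact ⟨_, h.1⟩
    · exact ih h.2 w hw

theorem nth_s {P : List (List ℕ) → Prop} {M0 : List (List ℕ)} {M : List (List (List ℕ))} (h0 : P M0)
    (h : ∀ u ∈ M, P u) (i : ℕ) : P (nth M0 M i) := by
  induction M generalizing i with
  | nil => exact h0
  | cons a l ih =>
    cases i with
    | zero => exact h a (by simp)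
    | succ j => exact ih (fun u hu => h u (by simp [hu])) j

theorem unp_eq (W K X : ℕ) (k : List ℕ → Bool) :
    unp W (2 ^ W - 1) K X k = k (((List.range K).map fun j => X / 2 ^ (W * j) % 2 ^ W) ++ [1]) := by
  induction K generalizing X k with
  | zero => rfl
  | succ K ih =>
    have e : unp W (2 ^ W - 1) (K + 1) X k = frc (Nat.land X (2 ^ W - 1)) fun t =>
        frc (Nat.shiftRight X W) fun Y => unp W (2 ^ W - 1) K Y fun r => k (t :: r) := rfl
    have e1 : Nat.land X (2 ^ W - 1) = X % 2 ^ W := Nat.and_two_pow_sub_one_eq_mod X W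
    have e2 : Nat.shiftRight X W = X / 2 ^ W := Nat.shiftRight_eq_div_pow X W
    rw [e, frc_eq, frc_eq, ih, e1, e2, List.range_succ_eq_map, List.map_cons, List.map_map, List.cons_append]
    congr 2
    · simp
    · congr 1
      refine List.map_congr_left fun j _ => ?_
      simp only [Function.comp, Nat.succ_eq_add_one]
      rw [Nat.div_div_eq_div_mul, ← pow_add, show W + W * j = W * (j + 1) by ring]

theorem wF_aux (win : List ℕ) (k : List ℕ → Bool) :
    @List.rec ℕ (fun _ => (List ℕ → Bool) → Bool) (fun k => k [1])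
      (fun u _ ih k => ih fun l => forceL (cslN u 0 l) k) win k = k (esyN win) := by
  induction win generalizing k with
  | nil => rfl
  | cons u l ih =>
    refine (ih _).trans ?_
    rw [forceL_eq]
    rfl

theorem wF_eq (sc win : List ℕ) (k : List ℕ → Bool) : wF sc win k = k (wN sc win) := by
  unfold wF
  rw [wF_aux, forceL_eq]
  rfl

theorem chk_eq {p : Kp} {a b : List ℕ} {L : List (List ℕ × ℕ)} (h : chk p a b L = true) : ∀ c ∈ L,
    lpI p.pt p.WT p.mT p.bT p.K p.SP p.U0 p.MU p.V0 p.MV (dotN (wN p.s3 c.1)
      ((p.TP.map fun B => B.map (dotN (wN p.s1 a))).map (dotN (wN p.s2 b)))) c.2 = true := by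
  unfold chk at h
  rw [wF_eq, wF_eq, ctr2_eq, ctr1_eq] at h
  generalize (p.TP.map fun B => B.map (dotN (wN p.s1 a))).map (dotN (wN p.s2 b)) = A1 at h ⊢
  induction L with
  | nil => intro c hc; cases hc
  | cons c L ih =>
    have h' : andB (wF p.s3 c.1 fun w3 =>
        lpI p.pt p.WT p.mT p.bT p.K p.SP p.U0 p.MU p.V0 p.MV (dotN w3 A1) c.2) _ = true := h
    rw [andB_eq, Bool.and_eq_true, wF_eq] at h'
    intro c' hc
    rcases List.mem_cons.1 hc with rfl | hc
    · exact h'.1
    · exact ih h'.2 c' hc

end Crest.Agent.BSp
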