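import Crest.Agent.Lib.BSp.Chk

/-! # Lib/BSp/ChkB : a priori bounds -/

set_option autoImplicit false

namespace Crest.Agent.BSp

open Crest.Agent.PSD Finset

theorem di_bd {α : Type} {f : α → ℤ} {g : α → ℕ} {c : ℕ} (hf : ∀ a, |f a| ≤ (g a : ℤ)) :
    ∀ (w : List ℕ) (l : List α), (∀ a ∈ w, a ≤ c) → |di f (iw w) l| ≤ ((c * (l.map g).sum : ℕ) : ℤ)
  | [], l, _ => by
    have e : di f (iw []) l = 0 := by cases l <;> rfl
    rw [e, abs_zero]; exact Nat.cast_nonneg _
  | _ :: _, [], _ => by simp [iw, di]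
  | x :: w, a :: l, h => by
    have ih := di_bd hf w l fun b hb => h b (List.mem_cons_of_mem _ hb)
    have hx : (x : ℤ) ≤ c := by exact_mod_cast h x List.mem_cons_self
    have e : di f (iw (x :: w)) (a :: l) = (x : ℤ) * f a + di f (iw w) l := rfl
    have h1 : |(x : ℤ) * f a| ≤ (c : ℤ) * g a := by
      rw [abs_mul, Nat.abs_cast]
      exact mul_le_mul hx (hf a) (abs_nonneg _) (Nat.cast_nonneg _)
    rw [e, List.map_cons, List.sum_cons]
    refine (abs_add_le _ _).trans ?_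
    push_cast at ih ⊢
    linarith

theorem sum_map_mul {α : Type} (c : ℕ) (g : α → ℕ) (l : List α) : (l.map fun a => c * g a).sum = c * (l.map g).sum := by
  induction l with
  | nil => simp
  | cons a l ih => simp only [List.map_cons, List.sum_cons, ih]; ring

theorem c1_bd {d c : ℕ} {w : List ℕ} (h : Wt d c w) (S : L1) : |c1 (iw w) S| ≤ ((c * n1 S : ℕ) : ℤ) :=
  di_bd (f := id) (g := Int.natAbs) (fun a => by simp) w S h.2

theorem c2_bd {d e c c' : ℕ} {w w' : List ℕ} (h : Wt d c w) (h' : Wt e c' w') (S : L2) :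
    |c2 (iw w) (iw w') S| ≤ ((c * c' * n2 S : ℕ) : ℤ) := by
  have := di_bd (f := c1 (iw w')) (g := fun l => c' * n1 l) (c1_bd h') w S h.2
  rwa [sum_map_mul, ← mul_assoc] at this

theorem c3_bd {d e f c c' c'' : ℕ} {w w' w'' : List ℕ} (h : Wt d c w) (h' : Wt e c' w') (h'' : Wt f c'' w'') (T : L3) :
    |c3 (iw w) (iw w') (iw w'') T| ≤ ((c * c' * c'' * n3 T : ℕ) : ℤ) := by
  have := di_bd (f := c2 (iw w') (iw w'')) (g := fun l => c' * c'' * n2 l) (c2_bd h' h'') w T h.2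
  rwa [sum_map_mul, ← mul_assoc, ← mul_assoc] at this

theorem ent_bd {M : List (L3 × List L2)} {τ : L3 → ℤ} {σ : L2 → ℤ} {c c' B : ℕ} (hτ : ∀ T, |τ T| ≤ ((c * n3 T : ℕ) : ℤ))
    (hσ : ∀ S, |σ S| ≤ ((c' * n2 S : ℕ) : ℤ))
    (h : ∀ e < 15, c * c' * (M.map fun p => n3 p.1 * n2 (p.2.getD e [])).sum < B) : ∀ a ∈ ent τ σ M, |a| < (B : ℤ) := by
  intro a ha
  simp only [ent, List.mem_map, List.mem_range] at ha
  obtain ⟨e, he, rfl⟩ := ha
  refine lt_of_le_of_lt ?_ (Nat.cast_lt.2 (h e he))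
  clear h
  induction M with
  | nil => simp
  | cons p M ih =>
    simp only [List.map_cons, List.sum_cons]
    refine (abs_add_le _ _).trans ?_
    have h1 : |τ p.1 * σ (p.2.getD e [])| ≤ ((c * n3 p.1 : ℕ) : ℤ) * ((c' * n2 (p.2.getD e []) : ℕ) : ℤ) := by
      rw [abs_mul]
      exact mul_le_mul (hτ _) (hσ _) (abs_nonneg _) (Nat.cast_nonneg _)
    have e2 : ((c * c' * (n3 p.1 * n2 (p.2.getD e []) + (M.map fun p => n3 p.1 * n2 (p.2.getD e [])).sum) : ℕ) : ℤ)
        = ((c * n3 p.1 : ℕ) : ℤ) * ((c' * n2 (p.2.getD e []) : ℕ) : ℤ)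
          + ((c * c' * (M.map fun p => n3 p.1 * n2 (p.2.getD e [])).sum : ℕ) : ℤ) := by
      simp only [Nat.cast_mul, Nat.cast_add]; ring
    rw [e2]
    exact add_le_add h1 ih

theorem frm_ent {M : List (L3 × List L2)} (h15 : ∀ p ∈ M, p.2.length = 15) (τ : L3 → ℤ) (σ : L2 → ℤ) (ξ : ℕ → ℝ) :
    frm (fun T => (τ T : ℝ)) (fun S => (σ S : ℝ)) ξ M = dw (fun a : ℤ => (a : ℝ)) ξ (ent τ σ M) := by
  have key : ∀ {α : Type} (f : α → ℝ) (a0 : α) (l : List α) (ξ : ℕ → ℝ),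
      dw f ξ l = ∑ e ∈ range l.length, ξ e * f (l.getD e a0) := by
    intro α f a0 l
    induction l with
    | nil => intro ξ; simp [dw]
    | cons a l ih => intro ξ; rw [dw, ih, List.length_cons, sum_range_succ', add_comm]; simp
  have hl : (ent τ σ M).length = 15 := by simp [ent]
  rw [key _ 0, hl]
  have e1 : ∀ e ∈ range 15, ξ e * (((ent τ σ M).getD e 0 : ℤ) : ℝ)
      = ξ e * (((M.map fun p => τ p.1 * σ (p.2.getD e [])).sum : ℤ) : ℝ) := fun e he => by
    rw [mem_range] at he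
    rw [List.getD_eq_getElem _ _ (by rw [hl]; exact he)]
    simp [ent]
  rw [sum_congr rfl e1]
  clear hl e1
  induction M with
  | nil => simp [frm]
  | cons p M ih =>
    rw [frm, ih fun q hq => h15 q (List.mem_cons_of_mem _ hq), key _ [], h15 p List.mem_cons_self, mul_sum,
      ← sum_add_distrib]
    refine sum_congr rfl fun e _ => ?_
    simp only [List.map_cons, List.sum_cons, Int.cast_add, Int.cast_mul]
    ring

end Crest.Agent.BSp
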