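import Crest.Agent.Lib.BSp.ChkN

/-! # Lib/BSp/ChkG : hull steps with nets -/

set_option autoImplicit false

namespace Crest.Agent.BSp

open Crest.Agent.PSD Finset

/-- as `ten_step` -/
theorem net_step {α : Type} {d c : ℕ} (hc : 0 < c) {ws : List (List ℕ)} (hn' : Net d c ws) {x : ℝ} (h0 : 0 ≤ x) (h1 : x ≤ 1)
    {p : List α → Prop} (hp : ∀ l, p l → l.length ≤ d + 1) {Φ : (List α → ℝ) → ℝ} (hΦ : Lf p Φ) (f : α → ℝ)
    (h : ∀ w ∈ ws, 0 ≤ Φ (dw f (rl (iw w)))) : 0 ≤ Φ (hv f x) := by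
  obtain ⟨w, hw, e⟩ := hn'.2 (fun w => 0 ≤ Φ (dw f w))
    (cv_lin (f := fun w => Φ (dw f w))
      (fun u v => by rw [← hΦ.add]; congr 1; funext l; exact dw_add f u v l)
      (fun c u => by rw [← hΦ.smul]; congr 1; funext l; exact dw_smul f c u l)) h x h0 h1
  rw [hΦ.congr _ ((c : ℝ) • hv f x) fun l hl => dw_hv f x (hp l hl) e, hΦ.smul] at hw
  exact (mul_nonneg_iff_of_pos_left (Nat.cast_pos.2 hc)).1 hw

/-- nested nets in the two shape variables -/
theorem shape_s {M : List (L3 × List L2)} {d e c c' : ℕ} (hc : 0 < c) (hc' : 0 < c') (hM : fitS d e M = true)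
    {us : List (List ℕ)} (hu : Net d c us) (τ : L3 → ℝ) (ξ : ℕ → ℝ)
    (h : ∀ w ∈ us, ∃ vs, Net e c' vs ∧ ∀ w' ∈ vs, 0 ≤ frm τ (fun S => (c2 (iw w) (iw w') S : ℝ)) ξ M)
    {v w : ℝ} (v0 : 0 ≤ v) (v1 : v ≤ 1) (w0 : 0 ≤ w) (w1 : w ≤ 1) : 0 ≤ frm τ (ev2 v w) ξ M := by
  have hΦ : Lf (fun l => fit2 d e l = true) fun σ => frm τ σ ξ M :=
    frm_lfS τ ξ (by simpa only [fitS, List.all_eq_true] using hM)
  refine net_step hc hu v0 v1
    (fun l hl => by simp only [fit2, Bool.and_eq_true, decide_eq_true_eq] at hl; exact hl.1) hΦ (ev1 w) fun a ha => ?_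
  obtain ⟨vs, hvs, h'⟩ := h a ha
  refine net_step hc' hvs w0 w1 (p := fun l => fit1 e l = true) (fun l hl => by simpa [fit1] using hl)
    (hΦ.inner (fun l hl => by simp only [fit2, Bool.and_eq_true, List.all_eq_true] at hl; exact hl.2) _) _
    fun b hb => ?_
  have := h' b hb
  simp only [c2, c1, di_cast] at this
  exact this

theorem G2_of {M : List (L3 × List L2)} {d1 d2 : ℕ} {a : Dg} (ha : a.ok = true) (hM : fitT d1 d2 a.d M = true)
    {kn : List ℕ} (hk : a.kn kn = true) {w1 w2 : List ℕ}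
    (h : ∀ l ∈ wds a.d (clamp a.d a.Q kn), G3 M w1 w2 (wN a.sc l)) : G2 M w1 w2 := by
  intro q v w q0 q1 v0 v1 w0 w1' x
  have hΦ : Lf (fun l => fit3 d1 d2 a.d l = true) fun τ => frm τ (ev2 v w) (xi x) M :=
    frm_lfT _ _ (by simpa only [fitT, List.all_eq_true] using hM)
  have hΦ2 := hΦ.inner (q := fun l => fit2 d2 a.d l = true)
    (fun l hl => by simp only [fit3, Bool.and_eq_true, List.all_eq_true] at hl; exact hl.2) (rl (iw w1))
  have hΦ3 := hΦ2.inner (q := fun l => fit1 a.d l = true)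
    (fun l hl => by simp only [fit2, Bool.and_eq_true, List.all_eq_true] at hl; exact hl.2) (rl (iw w2))
  refine net_step (Dg.c_pos ha) (net_ok ha hk) q0 q1 (p := fun l => fit1 a.d l = true)
    (fun l hl => by simpa [fit1] using hl) hΦ3 _ fun b hb => ?_
  obtain ⟨l, hl, rfl⟩ := List.mem_map.1 hb
  have := h l hl v w v0 v1 w0 w1' x
  simp only [c3, c2, c1, di_cast] at this
  exact this

theorem G1_of {M : List (L3 × List L2)} {d1 d3 : ℕ} {a : Dg} (ha : a.ok = true) (hM : fitT d1 a.d d3 M = true)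
    {kn : List ℕ} (hk : a.kn kn = true) {w1 : List ℕ}
    (h : ∀ l ∈ wds a.d (clamp a.d a.Q kn), G2 M w1 (wN a.sc l)) : G1 M w1 := by
  intro y q v w y0 y1 q0 q1 v0 v1 w0 w1' x
  have hΦ : Lf (fun l => fit3 d1 a.d d3 l = true) fun τ => frm τ (ev2 v w) (xi x) M :=
    frm_lfT _ _ (by simpa only [fitT, List.all_eq_true] using hM)
  have hΦ2 := hΦ.inner (q := fun l => fit2 a.d d3 l = true)
    (fun l hl => by simp only [fit3, Bool.and_eq_true, List.all_eq_true] at hl; exact hl.2) (rl (iw w1))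
  refine net_step (Dg.c_pos ha) (net_ok ha hk) y0 y1 (p := fun l => fit2 a.d d3 l = true)
    (fun l hl => by simp only [fit2, Bool.and_eq_true, decide_eq_true_eq] at hl; exact hl.1) hΦ2 (ev1 q) fun b hb => ?_
  obtain ⟨l, hl, rfl⟩ := List.mem_map.1 hb
  exact h l hl q v w q0 q1 v0 v1 w0 w1' x

theorem G0_of {M : List (L3 × List L2)} {d2 d3 : ℕ} {a : Dg} (ha : a.ok = true) (hM : fitT a.d d2 d3 M = true)
    {kn : List ℕ} (hk : a.kn kn = true)
    (h : ∀ l ∈ wds a.d (clamp a.d a.Q kn), G1 M (wN a.sc l)) : G0 M := by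
  intro s y q v w s0 s1 y0 y1 q0 q1 v0 v1 w0 w1' x
  have hΦ : Lf (fun l => fit3 a.d d2 d3 l = true) fun τ => frm τ (ev2 v w) (xi x) M :=
    frm_lfT _ _ (by simpa only [fitT, List.all_eq_true] using hM)
  refine net_step (Dg.c_pos ha) (net_ok ha hk) s0 s1 (p := fun l => fit3 a.d d2 d3 l = true)
    (fun l hl => by simp only [fit3, Bool.and_eq_true, decide_eq_true_eq] at hl; exact hl.1) hΦ (ev2 y q) fun b hb => ?_
  obtain ⟨l, hl, rfl⟩ := List.mem_map.1 hb
  exact h l hl y q v w y0 y1 q0 q1 v0 v1 w0 w1' x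

end Crest.Agent.BSp
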