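import Crest.Agent.Lib.BSp.ChkA

/-! # Lib/BSp/ChkS : packed shape side -/

set_option autoImplicit false
set_option linter.unusedVariables false

namespace Crest.Agent.BSp

open Crest.Agent.PSD Finset

theorem spdi_range {α : Type} (f : α → ℤ) (z : α) (hz : f z = 0) (w : List ℤ) (l : List α) {n : ℕ}
    (hn : l.length ≤ n) : di f w l = ∑ a ∈ range n, w.getD a 0 * f (l.getD a z) := by
  induction l generalizing w n with
  | nil => cases w <;> simp [di, hz]
  | cons c l ih =>
    obtain ⟨n, rfl⟩ : ∃ m, n = m + 1 := ⟨n - 1, by simp at hn; omega⟩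
    rcases w with _ | ⟨u, w⟩
    · simp [di]
    · rw [di, sum_range_succ', ih w (n := n) (by simpa using hn), add_comm]
      simp only [List.getD_cons_succ, List.getD_cons_zero]

theorem spdot_range (w : List ℕ) (n : ℕ) (f : ℕ → ℕ) :
    (dotN w ((List.range n).map f) : ℤ) = ∑ a ∈ range n, (iw w).getD a 0 * (f a : ℤ) := by
  rw [dotN_cast, spdi_range _ 0 (by simp) _ _ (n := n) (by simp)]
  refine sum_congr rfl fun a ha => ?_
  rw [mem_range] at ha
  congr 2
  simp [List.getD_eq_getElem?_getD, ha]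

theorem spdot_app {α : Type} (M : List α) (f g : α → ℕ) (x y : ℕ) :
    (dotN (M.map f ++ [x]) (M.map g ++ [y]) : ℤ) = (M.map fun p => (f p : ℤ) * g p).sum + x * y := by
  rw [dotN_cast]
  induction M with
  | nil => simp [iw, di]
  | cons p M ih =>
    simp only [iw, List.map_cons, List.cons_append, di, List.sum_cons] at ih ⊢
    rw [ih]; simp only [Int.ofNat_eq_natCast]; ring

/-- coefficients of the 15 entries in the packed symmetric matrix -/
def coS (B : ℤ) (e : ℕ) : ℤ :=
  [1, B + B ^ 5, B ^ 6, B ^ 2 + B ^ 10, B ^ 7 + B ^ 11, B ^ 12, B ^ 3 + B ^ 15, B ^ 8 + B ^ 16, B ^ 13 + B ^ 17,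
    B ^ 18, B ^ 4 + B ^ 20, B ^ 9 + B ^ 21, B ^ 14 + B ^ 22, B ^ 19 + B ^ 23, B ^ 24].getD e 0

theorem sppz_dupL (W : ℕ) (v : List ℤ) (hv : v.length = 15) :
    pz W (dupL v) = ∑ e ∈ range 15, coS (2 ^ W) e * v.getD e 0 := by
  match v, hv with
  | [a0, a1, a2, a3, a4, a5, a6, a7, a8, a9, a10, a11, a12, a13, a14], _ =>
    simp only [dupL, pz, coS, sum_range_succ, sum_range_zero, List.getD_cons_succ, List.getD_cons_zero]
    generalize (2 : ℤ) ^ W = B
    ring

theorem spc2_range {d4 d5 : ℕ} {S : P2} (h : fit2 d4 d5 S = true) (u v : List ℤ) :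
    c2 u v S = ∑ a ∈ range (d4 + 1), u.getD a 0 * ∑ b ∈ range (d5 + 1), v.getD b 0 * g2 S a b := by
  simp only [fit2, Bool.and_eq_true, decide_eq_true_eq, List.all_eq_true, fit1] at h
  rw [c2, spdi_range _ [] (by cases v <;> simp [c1, di]) _ _ h.1]
  refine sum_congr rfl fun a _ => ?_
  congr 1
  have : (S.getD a []).length ≤ d5 + 1 := by
    rw [List.getD_eq_getElem?_getD]
    rcases e : S[a]? with _ | l
    · simp
    · exact h.2 l (List.mem_of_getElem? e)
  rw [c1, spdi_range _ 0 rfl _ _ this]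
  rfl

theorem spmod_lsum {α : Type} {N : ℤ} (M : List α) {f g : α → ℤ} (h : ∀ p ∈ M, f p ≡ g p [ZMOD N]) :
    (M.map f).sum ≡ (M.map g).sum [ZMOD N] := by
  induction M with
  | nil => rfl
  | cons p M ih =>
    simp only [List.map_cons, List.sum_cons]
    exact (h p (by simp)).add (ih fun q hq => h q (by simp [hq]))

theorem spmod_fsum {N : ℤ} (s : Finset ℕ) {f g : ℕ → ℤ} (h : ∀ p ∈ s, f p ≡ g p [ZMOD N]) :
    ∑ a ∈ s, f a ≡ ∑ a ∈ s, g a [ZMOD N] := by
  induction s using Finset.induction_on with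
  | empty => rfl
  | insert a s ha ih =>
    rw [sum_insert ha, sum_insert ha]
    exact (h a (by simp)).add (ih fun q hq => h q (by simp [hq]))

theorem sptoNat_mod (x : ℤ) (n : ℕ) : (((x % 2 ^ n).toNat : ℕ) : ℤ) ≡ x [ZMOD 2 ^ n] := by
  rw [Int.toNat_of_nonneg (Int.emod_nonneg _ (by positivity))]
  exact Int.mod_modEq _ _

theorem sprow_s {α : Type} (M : List α) (n : ℕ) (c : ℤ) (τ F : α → ℤ) (hτ : ∀ p ∈ M, |τ p| < c) :
    (dotN ((M.map fun p => (τ p + c).toNat) ++ [1])
      ((M.map fun p => (F p % 2 ^ n).toNat) ++ [(-c * (M.map F).sum % 2 ^ n).toNat]) : ℤ) ≡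
      (M.map fun p => τ p * F p).sum [ZMOD 2 ^ n] := by
  rw [spdot_app]
  have h1 : (M.map fun p => (((τ p + c).toNat : ℕ) : ℤ) * ((F p % 2 ^ n).toNat : ℕ)).sum ≡
      (M.map fun p => (τ p + c) * F p).sum [ZMOD 2 ^ n] := spmod_lsum M fun p hp => by
    rw [Int.toNat_of_nonneg (a := τ p + c) (by have := abs_lt.1 (hτ p hp); omega)]
    exact (sptoNat_mod _ _).mul_left _
  have h2 := (sptoNat_mod (-c * (M.map F).sum) n).mul_left ((1 : ℕ) : ℤ)
  have e : ∀ M : List α, (M.map fun p => (τ p + c) * F p).sum + ((1 : ℕ) : ℤ) * (-c * (M.map F).sum) =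
      (M.map fun p => τ p * F p).sum := fun M => by
    induction M with
    | nil => simp
    | cons p M ih => simp only [List.map_cons, List.sum_cons] at ih ⊢; linear_combination ih
  rw [← e M]
  exact h1.add h2

theorem spfsum_lsum {α : Type} (M : List α) (s : Finset ℕ) (c : ℕ → ℤ) (f : ℕ → α → ℤ) :
    ∑ a ∈ s, c a * (M.map (f a)).sum = (M.map fun p => ∑ a ∈ s, c a * f a p).sum := by
  induction M with
  | nil => simp
  | cons p M ih => simp only [List.map_cons, List.sum_cons, mul_add, sum_add_distrib, ih]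

theorem sp_s {d4 d5 WT W : ℕ} {M : List (L3 × List L2)} (hM : fitS d4 d5 M = true)
    (h15 : ∀ p ∈ M, p.2.length = 15) (τ : L3 → ℤ) (hτ : ∀ p ∈ M, |τ p.1| < 2 ^ (WT - 1)) {w4 w5 : List ℕ}
    (h4 : w4.length = d4 + 1) (h5 : w5.length = d5 + 1) :
    (dotN w5 (((mkSP d4 d5 WT W M).map fun B =>
        B.map (dotN ((M.map fun p => (τ p.1 + 2 ^ (WT - 1)).toNat) ++ [1]))).map (dotN w4)) : ℤ) ≡
      pz W (dupL (ent τ (c2 (iw w4) (iw w5)) M)) [ZMOD 2 ^ (W * 25)] := by
  simp only [fitS, List.all_eq_true] at hM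
  simp only [mkSP, List.map_map, Function.comp_def]
  rw [spdot_range]
  refine (spmod_fsum _ (g := fun b => (iw w5).getD b 0 * ∑ a ∈ range (d4 + 1), (iw w4).getD a 0 *
    (M.map fun p => τ p.1 * pz W (dupL (p.2.map fun S => g2 S a b))).sum) fun b _ => ?_).trans ?_
  · refine Int.ModEq.mul_left _ ?_
    rw [spdot_range]
    exact spmod_fsum _ fun a _ => (sprow_s M _ _ (fun p => τ p.1) _ hτ).mul_left _
  · have : ∑ b ∈ range (d5 + 1), (iw w5).getD b 0 * ∑ a ∈ range (d4 + 1), (iw w4).getD a 0 *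
        (M.map fun p => τ p.1 * pz W (dupL (p.2.map fun S => g2 S a b))).sum =
        pz W (dupL (ent τ (c2 (iw w4) (iw w5)) M)) := by
      rw [sppz_dupL _ _ (by simp [ent])]
      have e1 : ∀ e ∈ range 15, coS (2 ^ W) e * (ent τ (c2 (iw w4) (iw w5)) M).getD e 0 =
          coS (2 ^ W) e * (M.map fun p => τ p.1 * c2 (iw w4) (iw w5) (p.2.getD e [])).sum := fun e he => by
        rw [mem_range] at he
        simp [ent, List.getD_eq_getElem?_getD, he]
      rw [sum_congr rfl e1, spfsum_lsum]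
      simp only [spfsum_lsum]
      congr 1
      refine List.map_congr_left fun p hp => ?_
      have e2 : ∀ a b, pz W (dupL (p.2.map fun S => g2 S a b)) =
          ∑ e ∈ range 15, coS (2 ^ W) e * g2 (p.2.getD e []) a b := fun a b => by
        rw [sppz_dupL _ _ (by simp [h15 p hp])]
        refine sum_congr rfl fun e he => ?_
        rw [mem_range, ← h15 p hp] at he
        simp [List.getD_eq_getElem?_getD, he]
      have e3 : ∀ e ∈ range 15, coS (2 ^ W) e * (τ p.1 * c2 (iw w4) (iw w5) (p.2.getD e [])) =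
          ∑ b ∈ range (d5 + 1), ∑ a ∈ range (d4 + 1),
            (iw w5).getD b 0 * ((iw w4).getD a 0 * (τ p.1 * (coS (2 ^ W) e * g2 (p.2.getD e []) a b))) := fun e he => by
        rw [mem_range, ← h15 p hp] at he
        have hm : p.2.getD e [] ∈ p.2 := by simp [List.getD_eq_getElem?_getD, he]
        rw [spc2_range (hM p hp _ hm), sum_comm]
        simp only [mul_sum]
        exact sum_congr rfl fun a _ => sum_congr rfl fun b _ => by ring
      rw [sum_congr rfl e3, sum_comm]
      refine sum_congr rfl fun b _ => ?_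
      rw [sum_comm, mul_sum]
      refine sum_congr rfl fun a _ => ?_
      rw [e2]
      simp only [mul_sum]
    rw [this]

end Crest.Agent.BSp
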