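import Crest.Agent.Lib.BSp.ChkT
import Crest.Agent.Lib.BSp.ChkS
import Crest.Agent.Lib.BSp.ChkB
import Crest.Agent.Lib.BSp.ChkG

/-! # Lib/BSp/ChkM : soundness of the checker -/

set_option autoImplicit false

namespace Crest.Agent.BSp

open Crest.Agent.PSD Finset

variable {M : List (L3 × List L2)} {p : Kp} {a1 a2 a3 a4 a5 : Dg} {W : ℕ}

theorem sz_s {WT : ℕ} (h : szOk M a1 a2 a3 a4 a5 WT W = true) :
    a1.ok = true ∧ a2.ok = true ∧ a3.ok = true ∧ a4.ok = true ∧ a5.ok = true ∧ fitT a1.d a2.d a3.d M = true ∧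
      fitS a4.d a5.d M = true ∧ 0 < WT ∧ 0 < W ∧ (∀ q ∈ M, q.2.length = 15) ∧
      (∀ q ∈ M, a1.c * a2.c * a3.c * n3 q.1 < 2 ^ (WT - 1)) ∧
      ∀ e < 15, a1.c * a2.c * a3.c * (a4.c * a5.c) * (M.map fun p => n3 p.1 * n2 (p.2.getD e [])).sum < 2 ^ (W - 1) := by
  simp only [szOk, Bool.and_eq_true, decide_eq_true_eq, List.all_eq_true, Nat.beq_eq, Nat.blt_eq, List.mem_range] at h
  obtain ⟨⟨⟨⟨⟨⟨⟨⟨⟨⟨⟨h1, h2⟩, h3⟩, h4⟩, h5⟩, h6⟩, h7⟩, h8⟩, h9⟩, h10⟩, h11⟩, h12⟩ := h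
  exact ⟨h1, h2, h3, h4, h5, h6, h7, h8, h9, h10, h11, h12⟩

theorem lpI_s (h : p.Ok M a1 a2 a3 a4 a5 W) {w1 w2 w3 : List ℕ} (h1 : Wt a1.d a1.c w1) (h2 : Wt a2.d a2.c w2)
    (h3 : Wt a3.d a3.c w3) {D : ℕ}
    (hc : lpI p.pt p.WT p.mT p.bT p.K p.SP p.U0 p.MU p.V0 p.MV
      (dotN w3 ((p.TP.map fun B => B.map (dotN w1)).map (dotN w2))) D = true) : G3 M w1 w2 w3 := by
  obtain ⟨-, -, -, o4, o5, fT, fS, hWT, -, h15, bT, bS⟩ := sz_s h.sz
  have hτ : ∀ q ∈ M, |c3 (iw w1) (iw w2) (iw w3) q.1| < 2 ^ (p.WT - 1) := fun q hq =>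
    (c3_bd h1 h2 h3 q.1).trans_lt (by exact_mod_cast bT q hq)
  have hl := lanes_s (X := dotN w3 ((p.TP.map fun B => B.map (dotN w1)).map (dotN w2))) (B := p.bT) hWT
    (l := M.map fun q => c3 (iw w1) (iw w2) (iw w3) q.1)
    (by simp only [List.mem_map]; rintro _ ⟨q, hq, rfl⟩; exact hτ q hq)
    (by rw [h.TP, List.length_map]; exact tp_s fT h1.1 h2.1 h3.1) (by rw [h.bT, List.map_map]; rfl)
  rw [List.length_map] at hl
  rw [lpI, h.mT, h.K, unp_eq, ctr2_eq] at hc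
  simp only [Nat.add_eq] at hc
  rw [hl, List.map_map] at hc
  intro v w v0 v1 w0 w1' x
  have nU := nth_s (P := Net a4.d a4.c) h.U0 h.MU (Nat.land D 15)
  refine shape_s (Dg.c_pos o4) (Dg.c_pos o5) fS nU _ _ (fun u hu => ?_) v0 v1 w0 w1'
  obtain ⟨i, hi⟩ := allD_s hc u hu
  have nV := nth_s (P := Net a5.d a5.c) h.V0 h.MV i
  refine ⟨_, nV, fun u' hu' => ?_⟩
  rw [ctr1_eq] at hi
  have hp := allL_s hi u' hu'
  have t4 := nU.1 u hu
  have t5 := nV.1 u' hu'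
  rw [frm_ent h15]
  refine h.pt _ _ (by simp [ent]) (fun a ha => ?_) ?_ hp x
  · have := ent_bd (c := a1.c * a2.c * a3.c) (c' := a4.c * a5.c) (c3_bd h1 h2 h3) (c2_bd t4 t5) bS a ha
    exact_mod_cast this
  · rw [h.SP]
    exact sp_s fS h15 _ hτ t4.1 t5.1

/-- part of a chunk -/
noncomputable def topP (p : Kp) (a1 a2 a3 : Dg) (a b : List ℕ) (L : List (List ℕ × ℕ)) : Bool :=
  andB (a1.win a && a2.win b && L.all fun c => a3.win c.1) (chk p a b L)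

theorem topP_s (h : p.Ok M a1 a2 a3 a4 a5 W) (a b : List ℕ) (L : List (List ℕ × ℕ)) (hc : topP p a1 a2 a3 a b L = true) :
    ∀ c ∈ L, G3 M (wN a1.sc a) (wN a2.sc b) (wN a3.sc c.1) := by
  obtain ⟨o1, o2, o3, -⟩ := sz_s h.sz
  simp only [topP, andB_eq, Bool.and_eq_true, List.all_eq_true] at hc
  obtain ⟨⟨⟨e1, e2⟩, e3⟩, e4⟩ := hc
  intro c hcL
  have := chk_eq e4 c hcL
  rw [h.s1, h.s2, h.s3] at this
  exact lpI_s h (wt_wN o1 e1) (wt_wN o2 e2) (wt_wN o3 (e3 c hcL)) this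

/-- a full chunk: inner knots `kn` of the third variable, one digit number per window -/
noncomputable def top (p : Kp) (a1 a2 a3 : Dg) (a b kn Ds : List ℕ) : Bool :=
  andB (a1.win a && a2.win b && a3.kn kn && Nat.beq Ds.length (wds a3.d (clamp a3.d a3.Q kn)).length)
    (chk p a b ((wds a3.d (clamp a3.d a3.Q kn)).zip Ds))

theorem top_s (h : p.Ok M a1 a2 a3 a4 a5 W) (a b kn Ds : List ℕ) (hc : top p a1 a2 a3 a b kn Ds = true) :
    G2 M (wN a1.sc a) (wN a2.sc b) := by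
  obtain ⟨o1, o2, o3, -, -, fT, -⟩ := sz_s h.sz
  simp only [top, andB_eq, Bool.and_eq_true, Nat.beq_eq] at hc
  obtain ⟨⟨⟨⟨e1, e2⟩, e3⟩, e4⟩, e5⟩ := hc
  refine G2_of o3 fT e3 fun l hl => ?_
  obtain ⟨i, hi, rfl⟩ := List.getElem_of_mem hl
  have hm : ((wds a3.d (clamp a3.d a3.Q kn))[i], Ds[i]'(by omega)) ∈ (wds a3.d (clamp a3.d a3.Q kn)).zip Ds := by
    rw [← List.getElem_zip (h := by simp; omega)]
    exact List.getElem_mem _
  have := chk_eq e5 _ hm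
  rw [h.s1, h.s2, h.s3] at this
  exact lpI_s h (wt_wN o1 e1) (wt_wN o2 e2) (wt_wN o3 (wds_win o3 e3 _ hl)) this

theorem row_s (h : p.Ok M a1 a2 a3 a4 a5 W) (a kn : List ℕ) (l : List (List ℕ))
    (hk : (a2.kn kn && decide (wds a2.d (clamp a2.d a2.Q kn) = l)) = true)
    (hl : l.Forall fun b => G2 M (wN a1.sc a) (wN a2.sc b)) : G1 M (wN a1.sc a) := by
  obtain ⟨-, o2, -, -, -, fT, -⟩ := sz_s h.sz
  simp only [Bool.and_eq_true, decide_eq_true_eq] at hk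
  rw [List.forall_iff_forall_mem, ← hk.2] at hl
  exact G1_of o2 fT hk.1 hl

theorem all_s (h : p.Ok M a1 a2 a3 a4 a5 W) (kn : List ℕ) (l : List (List ℕ))
    (hk : (a1.kn kn && decide (wds a1.d (clamp a1.d a1.Q kn) = l)) = true)
    (hl : l.Forall fun a => G1 M (wN a1.sc a)) : G0 M := by
  obtain ⟨o1, -, -, -, -, fT, -⟩ := sz_s h.sz
  simp only [Bool.and_eq_true, decide_eq_true_eq] at hk
  rw [List.forall_iff_forall_mem, ← hk.2] at hl
  exact G0_of o1 fT hk.1 hl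

/-- menus -/
theorem menu_s {a : Dg} (ha : a.ok = true) (kns : List (List ℕ)) (hk : kns.all a.kn = true) {m : List (List (List ℕ))}
    (hm : m = kns.map a.net) : ∀ u ∈ m, Net a.d a.c u := by
  subst hm
  intro u hu
  obtain ⟨kn, h1, rfl⟩ := List.mem_map.1 hu
  exact net_ok ha (List.all_eq_true.1 hk kn h1)

end Crest.Agent.BSp
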