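import Crest.Agent.Lib.BSp.Chk

/-! # Lib/BSp/ChkN : clamped knot lists give control nets -/

set_option autoImplicit false

namespace Crest.Agent.BSp

open Crest.Agent.PSD Finset

theorem cslN_len (u p : ℕ) (l : List ℕ) : (cslN u p l).length = l.length + 1 := by
  induction l generalizing p with
  | nil => rfl
  | cons a l ih => simp [cslN, ih]

theorem esyN_len (l : List ℕ) : (esyN l).length = l.length + 1 := by
  induction l with
  | nil => rfl
  | cons a l ih => simp [esyN, cslN_len, ih]

theorem iw_cslN (u p : ℕ) (l : List ℕ) : iw (cslN u p l) = csl u p (iw l) := by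
  induction l generalizing p with
  | nil => simp [cslN, csl, iw]
  | cons a l ih =>
    have := ih a
    simp only [iw] at this
    simp [cslN, csl, iw, this]

theorem iw_esyN (l : List ℕ) : iw (esyN l) = esy (iw l) := by
  induction l with
  | nil => rfl
  | cons a l ih => rw [esyN, iw_cslN, ih]; rfl

theorem iw_getD (l : List ℕ) (k : ℕ) : (iw l).getD k 0 = (l.getD k 0 : ℕ) := by
  induction l generalizing k with
  | nil => simp [iw]
  | cons a l ih => rcases k with _ | k <;> simp [iw] <;> simpa [iw] using ih k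

theorem esyN_succ (u : ℕ) (l : List ℕ) (k : ℕ) :
    (esyN (u :: l)).getD (k + 1) 0 = (esyN l).getD (k + 1) 0 + u * (esyN l).getD k 0 := by
  have := csl_succ u (iw (esyN l)) 0 k
  rw [show (0 : ℤ) = ((0 : ℕ) : ℤ) from rfl, ← iw_cslN] at this
  simp only [Nat.cast_zero, iw_getD] at this
  rw [esyN]
  exact_mod_cast this

theorem esyN_zero (l : List ℕ) : (esyN l).getD 0 0 = 1 := by
  induction l with
  | nil => rfl
  | cons a l ih =>
    rw [esyN]
    cases h : esyN l with
    | nil => simp [h] at ih
    | cons b r => simpa [h, cslN] using ih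

theorem esyN_le {Q : ℕ} (l : List ℕ) (hl : ∀ t ∈ l, t ≤ Q) (k : ℕ) : (esyN l).getD k 0 ≤ l.length.choose k * Q ^ k := by
  induction l generalizing k with
  | nil => rcases k with _ | k <;> simp [esyN]
  | cons a l ih =>
    rcases k with _ | k
    · rw [esyN_zero]; simp
    · have h1 := ih (fun t ht => hl t (by simp [ht])) (k + 1)
      have h2 := ih (fun t ht => hl t (by simp [ht])) k
      have h3 := Nat.mul_le_mul (hl a (by simp)) h2
      rw [esyN_succ, List.length_cons, Nat.choose_succ_succ']
      calc _ ≤ l.length.choose (k + 1) * Q ^ (k + 1) + Q * (l.length.choose k * Q ^ k) := Nat.add_le_add h1 h3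
        _ = _ := by ring

theorem wN_getD (d Q L : ℕ) (l : List ℕ) (hl : l.length = d) (k : ℕ) :
    (wN (scN d Q L) l).getD k 0 = L / d.choose k * Q ^ (d - k) * (esyN l).getD k 0 := by
  have e := esyN_len l
  by_cases hk : k < d + 1
  · have h1 : k < (esyN l).length := by omega
    simp [wN, scN, List.getD_eq_getElem?_getD, List.getElem?_zipWith, hk, List.getElem?_eq_getElem h1]
  · rw [List.getD_eq_default _ _ (by simp [wN, scN]; omega), List.getD_eq_default _ _ (by omega), mul_zero]

/-- `E_k (t) ≤ choose d k * Q ^ k` for `d` knots `≤ Q` -/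
theorem wt_wN {a : Dg} (ha : a.ok = true) {l : List ℕ} (hl : a.win l = true) : Wt a.d a.c (wN a.sc l) := by
  simp only [Dg.win, Bool.and_eq_true, List.all_eq_true, Nat.ble_eq, Nat.beq_eq] at hl
  have len : (wN a.sc l).length = a.d + 1 := by simp [wN, Dg.sc, scN, esyN_len, hl.1]
  refine ⟨len, fun x hx => ?_⟩
  obtain ⟨k, hk, rfl⟩ := List.getElem_of_mem hx
  rw [← List.getD_eq_getElem _ 0 hk, Dg.sc, wN_getD _ _ _ _ hl.1]
  have h1 := esyN_le l hl.2 k
  rw [hl.1] at h1
  calc _ ≤ a.L / a.d.choose k * a.Q ^ (a.d - k) * (a.d.choose k * a.Q ^ k) := Nat.mul_le_mul_left _ h1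
    _ = a.L / a.d.choose k * a.d.choose k * (a.Q ^ (a.d - k) * a.Q ^ k) := by ring
    _ ≤ a.c := by
      rw [← pow_add, Nat.sub_add_cancel (by omega)]
      exact Nat.mul_le_mul_right _ (Nat.div_mul_le_self _ _)

theorem mem_wds {d : ℕ} {t l : List ℕ} (h : l ∈ wds d t) : l.length = d ∧ ∀ x ∈ l, x ∈ t := by
  induction t with
  | nil => simp [wds] at h
  | cons a t ih =>
    rw [wds] at h
    split_ifs at h with hd
    · rcases List.mem_cons.1 h with rfl | h
      · exact ⟨by simp; omega, fun x hx => List.mem_of_mem_take hx⟩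
      · exact ⟨(ih h).1, fun x hx => List.mem_cons_of_mem _ ((ih h).2 x hx)⟩
    · simp at h

theorem wds_mem {d : ℕ} (hd : 0 < d) (t : List ℕ) (i : ℕ) (hi : i + d ≤ t.length) : (t.drop i).take d ∈ wds d t := by
  induction t generalizing i with
  | nil => simp at hi; omega
  | cons a t ih =>
    rw [List.length_cons] at hi
    rw [wds, if_pos (by omega)]
    rcases i with _ | i
    · simp
    · exact List.mem_cons_of_mem _ (ih i (by omega))

theorem srt_iw : ∀ t : List ℕ, srt (iw t) = srtN t
  | [] => rfl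
  | [_] => rfl
  | a :: b :: l => by
    have := srt_iw (b :: l)
    simp only [iw, List.map_cons] at this
    simp only [iw, List.map_cons, srt, srtN, this]
    congr 1
    rw [Bool.eq_iff_iff]
    simp

theorem kf_get : ∀ (t : List ℤ) (j : ℕ), j < t.length → kf t j = t.getD j 0
  | [], _, h => by simp at h
  | [a], j, h => by
    have : j = 0 := by simpa using h
    subst this; rfl
  | a :: b :: l, 0, _ => rfl
  | a :: b :: l, j + 1, h => by
    rw [kf, kf_get (b :: l) j (by simpa using h)]; rfl

theorem clamp_len (d Q : ℕ) (kn : List ℕ) : (clamp d Q kn).length = d + kn.length + d := by simp [clamp]; omega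

theorem clamp_lo (d Q : ℕ) (kn : List ℕ) {j : ℕ} (h : j < d) : (clamp d Q kn).getD j 0 = 0 := by
  rw [clamp, List.append_assoc, List.getD_append _ _ _ _ (by simpa using h)]
  simp [List.getD_eq_getElem?_getD, List.getElem?_replicate, h]

theorem clamp_hi (d Q : ℕ) (kn : List ℕ) {j : ℕ} (h : j < d) : (clamp d Q kn).getD (d + kn.length + j) 0 = Q := by
  rw [clamp, List.getD_append_right _ _ _ _ (by simp)]
  simp [List.getD_eq_getElem?_getD, List.getElem?_replicate, h]

theorem wds_win {a : Dg} (ha : a.ok = true) {kn : List ℕ} (h : a.kn kn = true) :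
    ∀ l ∈ wds a.d (clamp a.d a.Q kn), a.win l = true := by
  intro l hl
  simp only [Dg.ok, scOk, Bool.and_eq_true, decide_eq_true_eq] at ha
  have hd : 0 < a.d := ha.1.1.1
  obtain ⟨h1, h2⟩ := mem_wds hl
  simp only [Dg.win, Bool.and_eq_true, List.all_eq_true, Nat.ble_eq, Nat.beq_eq]
  refine ⟨h1, fun x hx => ?_⟩
  obtain ⟨j, hj, rfl⟩ := List.getElem_of_mem (h2 x hx)
  have hm : Monotone (kf (iw (clamp a.d a.Q kn))) := monotone_nat_of_le_succ (kf_succ _ (by rw [srt_iw]; exact h))
  have len := clamp_len a.d a.Q kn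
  have := hm (show j ≤ a.d + kn.length + (a.d - 1) by omega)
  rw [kf_get _ _ (by simpa [iw] using hj), kf_get _ _ (by simp only [iw, List.length_map]; omega), iw_getD, iw_getD,
    clamp_hi _ _ _ (by omega), List.getD_eq_getElem _ _ hj] at this
  exact_mod_cast this

theorem win_eq (t : List ℕ) (i d : ℕ) (hi : i + d ≤ t.length) :
    (List.range' i d).map (kf (iw t)) = iw ((t.drop i).take d) := by
  apply List.ext_getElem
  · simp [iw]; omega
  · intro j h1 h2
    have hj : j < d := by simpa using h1
    have : i + j < t.length := by omega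
    simp only [List.getElem_map, List.getElem_range', one_mul]
    rw [kf_get _ _ (by simpa [iw] using this), iw_getD, List.getD_eq_getElem _ _ this]
    simp [iw]

/-- use `Ax.conv` for `⟨a.d, a.Q, a.L, iw (clamp a.d a.Q kn)⟩`, windows `0 ≤ i < kn.length + a.d + 1` -/
theorem net_ok {a : Dg} (ha : a.ok = true) {kn : List ℕ} (h : a.kn kn = true) : Net a.d a.c (a.net kn) := by
  refine ⟨fun w hw => ?_, fun P hP hw x h0 h1 => ?_⟩
  · obtain ⟨l, hl, rfl⟩ := List.mem_map.1 hw
    exact wt_wN ha (wds_win ha h l hl)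
  have ha' := ha
  simp only [Dg.ok, scOk, Bool.and_eq_true, decide_eq_true_eq] at ha'
  have hd : 0 < a.d := ha'.1.1.1
  have len := clamp_len a.d a.Q kn
  have hQ : (0 : ℝ) ≤ a.Q := Nat.cast_nonneg _
  obtain ⟨ω, p, e⟩ := Ax.conv ⟨a.d, a.Q, a.L, iw (clamp a.d a.Q kn)⟩
    (by
      simp only [Ax.ok, Bool.and_eq_true, decide_eq_true_eq, srt_iw]
      exact ⟨⟨ha'.1, h⟩, ha'.2⟩)
    (x := x) (a := 0) (b := kn.length + a.d + 1)
    ⟨by simp only; omega,
      by
        simp only
        rw [kf_get _ _ (by simp only [iw, List.length_map]; omega), iw_getD, clamp_lo _ _ _ (by omega)]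
        simpa using mul_nonneg hQ h0,
      by
        simp only
        rw [kf_get _ _ (by simp only [iw, List.length_map]; omega), iw_getD,
          show kn.length + a.d + 1 - 1 = a.d + kn.length + 0 by omega, clamp_hi _ _ _ hd]
        simpa using mul_le_of_le_one_right hQ h1⟩ hP
    fun i _ hi => by
      have hi' : i + a.d ≤ (clamp a.d a.Q kn).length := by omega
      have := hw _ (List.mem_map.2 ⟨_, wds_mem hd _ i hi', rfl⟩)
      convert this using 1
      funext k
      simp only [rl, Ax.w, scl_get, zero_add, win_eq _ _ _ hi', ← iw_esyN, iw_getD, Ax.sc]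
      rw [wN_getD _ _ _ _ (by simp; omega)]
      push_cast
      rfl
  exact ⟨ω, p, fun k hk => by rw [e k hk, Dg.c]; push_cast; rfl⟩

theorem Dg.c_pos {a : Dg} (ha : a.ok = true) : 0 < a.c := by
  simp only [Dg.ok, scOk, Bool.and_eq_true, decide_eq_true_eq] at ha
  obtain ⟨⟨⟨-, hQ⟩, hL⟩, -⟩ := ha
  rw [Dg.c]
  positivity

end Crest.Agent.BSp
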