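import Crest.Agent.Lib.BSp.ChkM

/-! # Lib/BSp/ChkP (helper22): a chunk checked in several parts -/

set_option autoImplicit false

namespace Crest.Agent.BSp

variable {M : List (L3 × List L2)} {p : Kp} {a1 a2 a3 a4 a5 : Dg} {W : ℕ}

theorem fc {α : Type} {p : α → Prop} {a : α} {l : List α} (h : p a) (r : l.Forall p) : (a :: l).Forall p :=
  (List.forall_cons p a l).2 ⟨h, r⟩

theorem parts_s (h : p.Ok M a1 a2 a3 a4 a5 W) (a b kn : List ℕ) (Ls : List (List (List ℕ × ℕ)))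
    (hk : (a3.kn kn && decide (wds a3.d (clamp a3.d a3.Q kn) = Ls.flatten.map Prod.fst)) = true)
    (hl : Ls.Forall fun L => topP p a1 a2 a3 a b L = true) : G2 M (wN a1.sc a) (wN a2.sc b) := by
  obtain ⟨-, -, o3, -, -, fT, -⟩ := sz_s h.sz
  simp only [Bool.and_eq_true, decide_eq_true_eq] at hk
  rw [List.forall_iff_forall_mem] at hl
  refine G2_of o3 fT hk.1 fun l hl' => ?_
  rw [hk.2] at hl'
  obtain ⟨c, hc, rfl⟩ := List.mem_map.1 hl'
  obtain ⟨L, hL, hcL⟩ := List.mem_flatten.1 hc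
  exact topP_s h a b L (hl L hL) c hcL

end Crest.Agent.BSp
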