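import Crest.Agent.Lib.BSp.ChkA

/-! # Lib/BSp/ChkT : packed table side -/

set_option autoImplicit false

namespace Crest.Agent.BSp

open Crest.Agent.PSD Finset

theorem tT_di {α : Type} (f : α → ℤ) (a0 : α) (h0 : f a0 = 0) (w : List ℤ) (l : List α) (n : ℕ) (hn : w.length ≤ n) :
    di f w l = ∑ k ∈ range n, w.getD k 0 * f (l.getD k a0) := by
  induction w generalizing l n with
  | nil => simp [di]
  | cons c w ih =>
    rcases n with _ | n
    · simp at hn
    · rcases l with _ | ⟨a, l⟩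
      · simp [di, h0]
      · rw [sum_range_succ', di, ih l n (by simpa using hn), add_comm]
        simp

theorem tT_dot (w : List ℕ) (n : ℕ) (hn : w.length = n) (g : ℕ → ℕ) :
    (dotN w ((List.range n).map g) : ℤ) = ∑ k ∈ range n, (iw w).getD k 0 * (g k : ℤ) := by
  rw [dotN_cast, tT_di _ 0 (by simp) _ _ n (by simp [iw, hn])]
  refine sum_congr rfl fun k hk => ?_
  have hk' : k < n := mem_range.1 hk
  simp [List.getD_eq_getElem?_getD, hk']

theorem tT_pz {β : Type} (W : ℕ) (s : Finset ℕ) (c : ℕ → ℤ) (f : ℕ → β → ℤ) (M : List β) :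
    pz W (M.map fun p => ∑ k ∈ s, c k * f k p) = ∑ k ∈ s, c k * pz W (M.map (f k)) := by
  induction M with
  | nil => simp [pz]
  | cons p M ih =>
    simp only [List.map_cons, pz, ih, mul_sum, ← sum_add_distrib]
    exact sum_congr rfl fun k _ => by ring

theorem tT_sw (A B C : Finset ℕ) (a b c : ℕ → ℤ) (P : ℕ → ℕ → ℕ → ℤ) :
    ∑ i ∈ A, a i * ∑ j ∈ B, b j * ∑ m ∈ C, c m * P i j m = ∑ m ∈ C, c m * ∑ j ∈ B, b j * ∑ i ∈ A, a i * P i j m := by
  simp only [mul_sum]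
  rw [sum_comm, sum_congr rfl fun j _ => sum_comm, sum_comm]
  exact sum_congr rfl fun m _ => sum_congr rfl fun j _ => sum_congr rfl fun i _ => by ring

theorem tT_mod {N : ℤ} (s : Finset ℕ) (c f g : ℕ → ℤ) (h : ∀ k ∈ s, f k ≡ g k [ZMOD N]) :
    ∑ k ∈ s, c k * f k ≡ ∑ k ∈ s, c k * g k [ZMOD N] := by
  rw [Int.modEq_iff_dvd, ← sum_sub_distrib]
  refine dvd_sum fun k hk => ?_
  rw [← mul_sub]
  exact (Int.modEq_iff_dvd.1 (h k hk)).mul_left _

theorem tT_c3 (a b c : List ℤ) {n1 n2 n3 : ℕ} (h1 : a.length ≤ n1) (h2 : b.length ≤ n2) (h3 : c.length ≤ n3) (T : L3) :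
    c3 a b c T = ∑ m ∈ range n3, c.getD m 0 * ∑ j ∈ range n2, b.getD j 0 * ∑ i ∈ range n1, a.getD i 0 * g3 T i j m := by
  rw [← tT_sw, c3, tT_di _ [] (by cases b <;> simp [c2, di]) _ _ n1 h1]
  refine sum_congr rfl fun i _ => ?_
  rw [c2, tT_di _ [] (by cases c <;> simp [c1, di]) _ _ n2 h2]
  refine congrArg _ (sum_congr rfl fun j _ => ?_)
  rw [c1, tT_di _ 0 rfl _ _ n3 h3]
  rfl

theorem tp_s {d1 d2 d3 WT : ℕ} {M : List (L3 × List L2)} (hM : fitT d1 d2 d3 M = true) {w1 w2 w3 : List ℕ}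
    (h1 : w1.length = d1 + 1) (h2 : w2.length = d2 + 1) (h3 : w3.length = d3 + 1) :
    (dotN w3 (((mkTP d1 d2 d3 WT M).map fun B => B.map (dotN w1)).map (dotN w2)) : ℤ) ≡
      pz WT (M.map fun p => c3 (iw w1) (iw w2) (iw w3) p.1) [ZMOD 2 ^ (WT * M.length)] := by
  have e : (fun p : L3 × List L2 => c3 (iw w1) (iw w2) (iw w3) p.1) = fun p =>
      ∑ m ∈ range (d3 + 1), (iw w3).getD m 0 * ∑ j ∈ range (d2 + 1), (iw w2).getD j 0 *
        ∑ i ∈ range (d1 + 1), (iw w1).getD i 0 * g3 p.1 i j m := by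
    funext p
    exact tT_c3 _ _ _ (by simp [iw, h1]) (by simp [iw, h2]) (by simp [iw, h3]) _
  rw [e, tT_pz]
  simp only [mkTP, List.map_map, Function.comp_def]
  rw [tT_dot w3 _ h3]
  refine tT_mod _ _ _ _ fun m _ => ?_
  rw [tT_pz, tT_dot w2 _ h2]
  refine tT_mod _ _ _ _ fun j _ => ?_
  rw [tT_pz, tT_dot w1 _ h1]
  refine tT_mod _ _ _ _ fun i _ => ?_
  rw [Int.toNat_of_nonneg (Int.emod_nonneg _ (by positivity))]
  exact Int.mod_modEq _ _

theorem tT_ln (W : ℕ) (l : List ℤ) (hl : ∀ a ∈ l, 0 ≤ a ∧ a < 2 ^ W) (Y : ℕ)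
    (hY : (Y : ℤ) ≡ pz W l [ZMOD 2 ^ (W * l.length)]) :
    ((List.range l.length).map fun j => Y / 2 ^ (W * j) % 2 ^ W) = l.map Int.toNat := by
  induction l generalizing Y with
  | nil => simp
  | cons a l ih =>
    obtain ⟨a0, a1⟩ := hl a (by simp)
    obtain ⟨t, ht⟩ := Int.modEq_iff_dvd.1 hY.symm
    have hp : (0 : ℤ) < 2 ^ W := by positivity
    have e : (Y : ℤ) = a + 2 ^ W * (pz W l + 2 ^ (W * l.length) * t) := by
      rw [pz, List.length_cons, Nat.mul_succ, pow_add] at ht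
      linear_combination ht
    have e1 : ((Y % 2 ^ W : ℕ) : ℤ) = a := by
      push_cast
      rw [e, Int.add_mul_emod_self_left, Int.emod_eq_of_lt a0 a1]
    have e2 : ((Y / 2 ^ W : ℕ) : ℤ) = pz W l + 2 ^ (W * l.length) * t := by
      push_cast
      rw [e, Int.add_mul_ediv_left _ _ hp.ne', Int.ediv_eq_zero_of_lt a0 a1, zero_add]
    have := ih (fun b hb => hl b (by simp [hb])) (Y / 2 ^ W) (by
      rw [e2]
      exact (Int.modEq_iff_dvd.2 ⟨-t, by ring⟩))
    rw [List.length_cons, List.range_succ_eq_map, List.map_cons, List.map_cons, List.map_map, ← this]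
    congr 1
    · rw [← e1, Int.toNat_natCast]; simp
    · refine List.map_congr_left fun j _ => ?_
      simp only [Function.comp_def, Nat.succ_eq_add_one]
      rw [Nat.div_div_eq_div_mul, ← pow_add, Nat.mul_succ, add_comm]

theorem tT_pa (W : ℕ) (c : ℤ) (l : List ℤ) : pz W (l.map fun z => z + c) = pz W l + pz W (l.map fun _ => c) := by
  induction l with
  | nil => simp [pz]
  | cons a l ih => simp only [List.map_cons, pz, ih]; ring

/-- biased lanes -/
theorem lanes_s {W X B : ℕ} (hW : 0 < W) {l : List ℤ} (hl : ∀ a ∈ l, |a| < 2 ^ (W - 1))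
    (hX : (X : ℤ) ≡ pz W l [ZMOD 2 ^ (W * l.length)]) (hB : (B : ℤ) = pz W (l.map fun _ => 2 ^ (W - 1))) :
    ((List.range l.length).map fun j => (X + B) / 2 ^ (W * j) % 2 ^ W) = l.map fun z => (z + 2 ^ (W - 1)).toNat := by
  have e : (2 : ℤ) ^ W = 2 ^ (W - 1) + 2 ^ (W - 1) := by
    rw [← two_mul, ← pow_succ', Nat.sub_add_cancel hW]
  have := tT_ln W (l.map fun z => z + 2 ^ (W - 1)) (fun a ha => by
    obtain ⟨z, hz, rfl⟩ := List.mem_map.1 ha
    have := abs_lt.1 (hl z hz)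
    constructor <;> linarith [this.1, this.2]) (X + B) (by
    rw [List.length_map, tT_pa, Nat.cast_add, hB]
    exact hX.add_right _)
  rwa [List.length_map, List.map_map] at this

end Crest.Agent.BSp
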