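import Mathlib

/-! # Lib/BSp/Conv (helper36): de Boor convexity.  The weight vector `k ↦ choose d k * x ^ k` of a polynomial of degree `d`
is a convex combination of the elementary symmetric vectors of the windows of `d` consecutive knots. -/

set_option autoImplicit false

namespace Crest.Agent.BSp

section ring
variable {R : Type*} [CommRing R]

/-- multiply the generating polynomial by `1 + u X` -/
def cs (u : R) (a : ℕ → R) : ℕ → R
  | 0 => a 0
  | k + 1 => a (k + 1) + u * a k

/-- the unit sequence -/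
def dl : ℕ → R
  | 0 => 1
  | _ + 1 => 0

/-- elementary symmetric functions of the window `t i, …, t (i + m - 1)`, applied to `a` -/
def wn (t : ℕ → R) : ℕ → ℕ → (ℕ → R) → ℕ → R
  | _, 0, a => a
  | i, m + 1, a => cs (t i) (wn t (i + 1) m a)

theorem cs_comm (u v : R) (a : ℕ → R) : cs u (cs v a) = cs v (cs u a) := by
  funext k
  rcases k with _ | _ | k <;> simp only [cs] <;> ring

theorem wn_cs (t : ℕ → R) (i m : ℕ) (v : R) (a : ℕ → R) : wn t i m (cs v a) = cs v (wn t i m a) := by
  induction m generalizing i with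
  | zero => rfl
  | succ m ih => simp only [wn, ih, cs_comm (t i) v]

theorem wn_succ' (t : ℕ → R) (i m : ℕ) (a : ℕ → R) : wn t i (m + 1) a = cs (t (i + m)) (wn t i m a) := by
  induction m generalizing i with
  | zero => rfl
  | succ m ih =>
    rw [wn, ih, cs_comm, show i + 1 + m = i + (m + 1) by omega]
    rfl

theorem cs_iter (x : R) (d k : ℕ) : (cs x)^[d] dl k = (d.choose k : R) * x ^ k := by
  induction d generalizing k with
  | zero => rcases k with _ | k <;> simp [dl]
  | succ d ih =>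
    rw [Function.iterate_succ_apply']
    rcases k with _ | k
    · simp [cs, ih]
    · simp only [cs, ih, Nat.choose_succ_succ', Nat.cast_add]
      ring

theorem cs_map {S : Type*} [CommRing S] (φ : R →+* S) (u : R) (a : ℕ → R) (k : ℕ) :
    φ (cs u a k) = cs (φ u) (fun j => φ (a j)) k := by
  rcases k with _ | k <;> simp [cs]

theorem wn_map {S : Type*} [CommRing S] (φ : R →+* S) (t : ℕ → R) (i m : ℕ) (a : ℕ → R) (k : ℕ) :
    φ (wn t i m a k) = wn (fun j => φ (t j)) i m (fun j => φ (a j)) k := by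
  induction m generalizing i k with
  | zero => rfl
  | succ m ih =>
    rw [wn, wn, cs_map]
    congr 1
    exact funext fun j => ih _ j

theorem dl_map {S : Type*} [CommRing S] (φ : R →+* S) : (fun j => φ (dl j)) = dl := by
  funext k
  rcases k with _ | k <;> simp [dl]

theorem wn_congr {t t' : ℕ → R} {i i' m : ℕ} (h : ∀ j < m, t (i + j) = t' (i' + j)) (a : ℕ → R) :
    wn t i m a = wn t' i' m a := by
  induction m generalizing i i' with
  | zero => rfl
  | succ m ih =>
    have h0 := h 0 (by omega)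
    simp only [add_zero] at h0
    rw [wn, wn, h0, ih (i' := i' + 1) fun j hj => by
      have := h (j + 1) (by omega)
      rwa [show i + (j + 1) = i + 1 + j by omega, show i' + (j + 1) = i' + 1 + j by omega] at this]
end ring

theorem cs_aff (u v l : ℝ) (a : ℕ → ℝ) : cs ((1 - l) * u + l * v) a = (1 - l) • cs u a + l • cs v a := by
  funext k
  rcases k with _ | k <;> simp only [cs, Pi.add_apply, Pi.smul_apply, smul_eq_mul] <;> ring

/-- a set of weight vectors closed under convex combinations -/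
def Cv (P : (ℕ → ℝ) → Prop) : Prop := ∀ a b : ℕ → ℝ, ∀ l : ℝ, 0 ≤ l → l ≤ 1 → P a → P b → P ((1 - l) • a + l • b)

theorem bsp_aux {P : (ℕ → ℝ) → Prop} (hP : Cv P) {t : ℕ → ℝ} (ht : Monotone t) {x : ℝ} {j d : ℕ} (h1 : t j ≤ x)
    (h2 : x ≤ t (j + 1)) (h : ∀ i, i ≤ j + 1 → j + 1 ≤ i + d → P (wn t i d dl)) (hd : d ≤ j + 1) (r : ℕ) (hr : r ≤ d) :
    ∀ i, i ≤ j + 1 → j + 1 ≤ i + (d - r) → P (wn t i (d - r) ((cs x)^[r] dl)) := by
  induction r with
  | zero => simpa using h
  | succ r ih =>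
    intro i hi hj
    obtain ⟨m, hm⟩ : ∃ m, d - r = m + 1 := ⟨d - r - 1, by omega⟩
    have hm' : d - (r + 1) = m := by omega
    rw [hm'] at hj ⊢
    have ih' := ih (by omega)
    rw [hm] at ih'
    obtain ⟨i, rfl⟩ : ∃ i', i = i' + 1 := ⟨i - 1, by omega⟩
    have a1 := ih' i (by omega) (by omega)
    have a2 := ih' (i + 1) hi (by omega)
    rw [wn] at a1
    rw [wn_succ'] at a2
    rw [Function.iterate_succ_apply', wn_cs]
    have b1 : t i ≤ x := (ht (by omega)).trans h1
    have b2 : x ≤ t (i + 1 + m) := h2.trans (ht hj)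
    rcases eq_or_lt_of_le (b1.trans b2) with he | hl
    · have : x = t i := le_antisymm (he ▸ b2) b1
      rwa [← this] at a1
    · have hp : 0 < t (i + 1 + m) - t i := sub_pos.2 hl
      have e : x = (1 - (x - t i) / (t (i + 1 + m) - t i)) * t i + (x - t i) / (t (i + 1 + m) - t i) * t (i + 1 + m) := by
        field_simp
        ring
      have := hP _ _ ((x - t i) / (t (i + 1 + m) - t i)) (div_nonneg (by linarith) hp.le)
        ((div_le_one hp).2 (by linarith)) a1 a2
      rwa [← cs_aff, ← e] at this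

/-- one knot cell -/
theorem bsp_cell {P : (ℕ → ℝ) → Prop} (hP : Cv P) {t : ℕ → ℝ} (ht : Monotone t) {x : ℝ} {j d : ℕ} (h1 : t j ≤ x)
    (h2 : x ≤ t (j + 1)) (hd : d ≤ j + 1) (h : ∀ i, i ≤ j + 1 → j + 1 ≤ i + d → P (wn t i d dl)) :
    P fun k => (d.choose k : ℝ) * x ^ k := by
  have := bsp_aux hP ht h1 h2 h hd d le_rfl (j + 1) le_rfl (by omega)
  rw [Nat.sub_self, wn] at this
  rwa [← funext (cs_iter x d)]

/-- a whole knot vector: `x ∈ [t e, t (e + n + 1)]`, `d ≤ e + 1`; windows starting at `i ≤ e + n + 1` with `e + 1 ≤ i + d` -/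
theorem bsp_conv {P : (ℕ → ℝ) → Prop} (hP : Cv P) {t : ℕ → ℝ} (ht : Monotone t) {x : ℝ} {e n d : ℕ} (h1 : t e ≤ x)
    (h2 : x ≤ t (e + n + 1)) (hd : d ≤ e + 1) (h : ∀ i, i ≤ e + n + 1 → e + 1 ≤ i + d → P (wn t i d dl)) :
    P fun k => (d.choose k : ℝ) * x ^ k := by
  induction n with
  | zero => exact bsp_cell hP ht h1 h2 hd h
  | succ n ih =>
    rcases le_total x (t (e + n + 1)) with hx | hx
    · exact ih hx fun i hi hj => h i (by omega) hj
    · exact bsp_cell hP ht hx h2 (by omega) fun i hi hj => h i hi (by omega)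

/-- the usual indexing: degree `d + 1`, knots `t 0 ≤ t 1 ≤ …`, `x ∈ [t d, t (d + n + 1)]`, windows `i < n + d + 2` -/
theorem bsp_conv' {P : (ℕ → ℝ) → Prop} (hP : Cv P) {t : ℕ → ℝ} (ht : Monotone t) {x : ℝ} {n d : ℕ} (h1 : t d ≤ x)
    (h2 : x ≤ t (d + n + 1)) (h : ∀ i < n + d + 2, P (wn t i (d + 1) dl)) :
    P fun k => ((d + 1).choose k : ℝ) * x ^ k :=
  bsp_conv hP ht h1 h2 le_rfl fun i hi _ => h i (by omega)

/-- nonnegativity of a linear functional is a convex condition -/
theorem cv_lin {f : (ℕ → ℝ) → ℝ} (ha : ∀ a b, f (a + b) = f a + f b) (hs : ∀ (c : ℝ) a, f (c • a) = c * f a) :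
    Cv fun a => 0 ≤ f a := fun a b l h0 h1 pa pb => by
  show 0 ≤ f _
  rw [ha, hs, hs]
  exact add_nonneg (mul_nonneg (by linarith) pa) (mul_nonneg h0 pb)

end Crest.Agent.BSp
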