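import Crest.Agent.Lib.BSp.Ten

/-! # Lib/BSp/Nest (helper36): nested knot vectors (every control slice chooses its own axis for the next variable). -/

set_option autoImplicit false

namespace Crest.Agent.BSp

/-- some axis of degree `d` covers `x` and all its windows satisfy `R` -/
def Cov (d : ℕ) (x : ℝ) (R : List ℤ → Prop) : Prop :=
  ∃ (A : Ax) (a b : ℕ), A.ok = true ∧ A.d = d ∧ A.In x a b ∧ ∀ i, a ≤ i → i < b → R (A.w i)

theorem Cov.mono {d : ℕ} {x : ℝ} {R R' : List ℤ → Prop} (h : Cov d x R) (e : ∀ w, R w → R' w) : Cov d x R' := by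
  obtain ⟨A, a, b, h1, h2, h3, h4⟩ := h
  exact ⟨A, a, b, h1, h2, h3, fun i i1 i2 => e _ (h4 i i1 i2)⟩

/-- number of windows of the whole knot list -/
def Ax.n (A : Ax) : ℕ := A.t.length + 1 - A.d

/-- the knot list covers `[0, 1]` -/
def Ax.full (A : Ax) : Bool :=
  A.ok && decide (A.d + 1 ≤ A.n) && decide (kf A.t (A.d - 1) ≤ 0) && decide ((A.Q : ℤ) ≤ kf A.t (A.n - 1))

theorem Cov.of_full (A : Ax) (hA : A.full = true) {x : ℝ} (h0 : 0 ≤ x) (h1 : x ≤ 1) {R : List ℤ → Prop}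
    (h : ∀ i < A.n, R (A.w i)) : Cov A.d x R := by
  simp only [Ax.full, Bool.and_eq_true, decide_eq_true_eq] at hA
  obtain ⟨⟨⟨e0, e1⟩, e2⟩, e3⟩ := hA
  have f2 := (Int.cast_le (R := ℝ)).2 e2
  have f3 := (Int.cast_le (R := ℝ)).2 e3
  push_cast at f2 f3
  have hQ : (0 : ℝ) ≤ A.Q := Nat.cast_nonneg _
  refine ⟨A, 0, A.n, e0, rfl, ⟨by omega, ?_, ?_⟩, fun i _ hi => h i hi⟩
  · rw [zero_add]; exact f2.trans (mul_nonneg hQ h0)
  · exact (mul_le_of_le_one_right hQ h1).trans f3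

/-- any convex condition on the weights: the basic step -/
theorem Cov.conv {d : ℕ} {x : ℝ} {P : (ℕ → ℝ) → Prop} (hP : Cv P) (h : Cov d x fun w => P (rl w)) :
    ∃ (C : ℝ) (w : ℕ → ℝ), 0 < C ∧ P w ∧ ∀ k ≤ d, w k = C * x ^ k := by
  obtain ⟨A, a, b, h1, rfl, h3, h4⟩ := h
  obtain ⟨w, p, e⟩ := A.conv h1 h3 hP h4
  exact ⟨_, w, A.pos h1, p, e⟩

theorem Cov.step {α : Type} {d : ℕ} {x : ℝ} {p : List α → Prop} (hp : ∀ l, p l → l.length ≤ d + 1)
    {Φ : (List α → ℝ) → ℝ} (hΦ : Lf p Φ) (f : α → ℝ) (h : Cov d x fun w => 0 ≤ Φ (dw f (rl w))) : 0 ≤ Φ (hv f x) := by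
  obtain ⟨A, a, b, h1, rfl, h3, h4⟩ := h
  exact ten_step A h1 h3 hp hΦ f h4

theorem nest1 {d : ℕ} {x : ℝ} {Φ : (P1 → ℝ) → ℝ} (hΦ : Lf (fun l => fit1 d l = true) Φ)
    (h : Cov d x fun a => 0 ≤ Φ fun l => (c1 a l : ℝ)) : 0 ≤ Φ (ev1 x) :=
  Cov.step (fun l hl => by simpa [fit1] using hl) hΦ _ (h.mono fun a ha => by
    simp only [c1, di_cast] at ha
    exact ha)

theorem nest2 {d e : ℕ} {x y : ℝ} {Φ : (P2 → ℝ) → ℝ} (hΦ : Lf (fun l => fit2 d e l = true) Φ)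
    (h : Cov d x fun a => Cov e y fun b => 0 ≤ Φ fun l => (c2 a b l : ℝ)) : 0 ≤ Φ (ev2 x y) :=
  Cov.step (fun l hl => by simp only [fit2, Bool.and_eq_true, decide_eq_true_eq] at hl; exact hl.1) hΦ _
    (h.mono fun a ha => nest1
      (hΦ.inner (fun l hl => by simp only [fit2, Bool.and_eq_true, List.all_eq_true] at hl; exact hl.2) _)
      (ha.mono fun b hb => by
        simp only [c2, di_cast] at hb
        exact hb))

theorem nest3 {d e f : ℕ} {x y z : ℝ} {Φ : (P3 → ℝ) → ℝ} (hΦ : Lf (fun l => fit3 d e f l = true) Φ)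
    (h : Cov d x fun a => Cov e y fun b => Cov f z fun c => 0 ≤ Φ fun l => (c3 a b c l : ℝ)) : 0 ≤ Φ (ev3 x y z) :=
  Cov.step (fun l hl => by simp only [fit3, Bool.and_eq_true, decide_eq_true_eq] at hl; exact hl.1) hΦ _
    (h.mono fun a ha => nest2
      (hΦ.inner (fun l hl => by simp only [fit3, Bool.and_eq_true, List.all_eq_true] at hl; exact hl.2) _)
      (ha.mono fun b hb => hb.mono fun c hc => by
        simp only [c3, di_cast] at hc
        exact hc))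

/-- order `s, y, q, v, w` (table variables outside) -/
theorem nest5 {d1 d2 d3 d4 d5 : ℕ} {s y q v w : ℝ} {M : List (P3 × List P2)} (hT : fitT d1 d2 d3 M = true)
    (hS : fitS d4 d5 M = true) (ξ : ℕ → ℝ)
    (h : Cov d1 s fun a => Cov d2 y fun b => Cov d3 q fun c => Cov d4 v fun e => Cov d5 w fun f =>
      0 ≤ frm (fun T => (c3 a b c T : ℝ)) (fun S => (c2 e f S : ℝ)) ξ M) : 0 ≤ frm (ev3 s y q) (ev2 v w) ξ M :=
  nest3 (frm_lfT _ ξ (by simpa only [fitT, List.all_eq_true] using hT))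
    (h.mono fun _ ha => ha.mono fun _ hb => hb.mono fun _ hc =>
      nest2 (frm_lfS _ ξ (by simpa only [fitS, List.all_eq_true] using hS)) hc)

/-- order `v, w, s, y, q` (shape variables outside) -/
theorem nest5' {d1 d2 d3 d4 d5 : ℕ} {s y q v w : ℝ} {M : List (P3 × List P2)} (hT : fitT d1 d2 d3 M = true)
    (hS : fitS d4 d5 M = true) (ξ : ℕ → ℝ)
    (h : Cov d4 v fun e => Cov d5 w fun f => Cov d1 s fun a => Cov d2 y fun b => Cov d3 q fun c =>
      0 ≤ frm (fun T => (c3 a b c T : ℝ)) (fun S => (c2 e f S : ℝ)) ξ M) : 0 ≤ frm (ev3 s y q) (ev2 v w) ξ M :=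
  nest2 (frm_lfS _ ξ (by simpa only [fitS, List.all_eq_true] using hS))
    (h.mono fun _ ha => ha.mono fun _ hb =>
      nest3 (frm_lfT _ ξ (by simpa only [fitT, List.all_eq_true] using hT)) hb)

end Crest.Agent.BSp
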