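import Mathlib.Tactic
import Crest.Agent.Lib.PSD.Ldl

/-! # Lib/BSp/Pt (helper18): fast positive-definiteness test of a 5×5 matrix all of whose entries and fraction-free Schur
entries are positive naturals. -/

set_option autoImplicit false
set_option linter.unusedVariables false

namespace Crest.Agent.BSp

/-- `false` on `0`, else continue with the predecessor -/
noncomputable def fz (z : ℕ) (k : ℕ → Bool) : Bool := @Nat.rec (fun _ => Bool) false (fun m _ => k m) z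

theorem fz_s {z : ℕ} {k : ℕ → Bool} (H : fz z k = true) : ∃ m, z = m + 1 ∧ k m = true := by
  cases z with
  | zero => exact absurd H (by simp [fz])
  | succ m => exact ⟨m, rfl, H⟩

theorem sub_s {a b c d m : ℕ} (h : Nat.sub (Nat.mul a b) (Nat.mul c d) = m + 1) : (a : ℝ) * b - c * d = m + 1 := by
  have h1 : a * b = c * d + (m + 1) := by
    have : a * b - c * d = m + 1 := h
    omega
  have h2 : ((a * b : ℕ) : ℝ) = ((c * d + (m + 1) : ℕ) : ℝ) := by rw [h1]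
  push_cast at h2
  linarith

def q1 (a55 x5 : ℝ) : ℝ :=
  a55 * x5 ^ 2

def q2 (a44 a45 a55 x4 x5 : ℝ) : ℝ :=
  a44 * x4 ^ 2 + 2 * a45 * x4 * x5 + a55 * x5 ^ 2

def q3 (a33 a34 a35 a44 a45 a55 x3 x4 x5 : ℝ) : ℝ :=
  a33 * x3 ^ 2 + 2 * a34 * x3 * x4 + 2 * a35 * x3 * x5 + a44 * x4 ^ 2 + 2 * a45 * x4 * x5 + a55 * x5 ^ 2

def q4 (a22 a23 a24 a25 a33 a34 a35 a44 a45 a55 x2 x3 x4 x5 : ℝ) : ℝ :=
  a22 * x2 ^ 2 + 2 * a23 * x2 * x3 + 2 * a24 * x2 * x4 + 2 * a25 * x2 * x5 + a33 * x3 ^ 2 + 2 * a34 * x3 * x4 + 2 * a35 * x3 * x5 + a44 * x4 ^ 2 + 2 * a45 * x4 * x5 + a55 * x5 ^ 2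

def q5 (a11 a12 a13 a14 a15 a22 a23 a24 a25 a33 a34 a35 a44 a45 a55 x1 x2 x3 x4 x5 : ℝ) : ℝ :=
  a11 * x1 ^ 2 + 2 * a12 * x1 * x2 + 2 * a13 * x1 * x3 + 2 * a14 * x1 * x4 + 2 * a15 * x1 * x5 + a22 * x2 ^ 2 + 2 * a23 * x2 * x3 + 2 * a24 * x2 * x4 + 2 * a25 * x2 * x5 + a33 * x3 ^ 2 + 2 * a34 * x3 * x4 + 2 * a35 * x3 * x5 + a44 * x4 ^ 2 + 2 * a45 * x4 * x5 + a55 * x5 ^ 2

noncomputable def pz2 (a44 a45 a55 : ℕ) : Bool :=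
  @Nat.rec (fun _ => Bool) false (fun _ _ => true) (Nat.sub (Nat.mul a44 a55) (Nat.mul a45 a45))

theorem pz2_s {a44 a45 a55 : ℕ} (H : pz2 a44 a45 a55 = true) (x4 x5 : ℝ) :
    0 ≤ q2 a44 a45 a55 x4 x5 := by
  have H0 : fz (Nat.sub (Nat.mul a44 a55) (Nat.mul a45 a45)) (fun _ => true) = true := H
  obtain ⟨b55, eb55, H1⟩ := fz_s H0
  have fb55 := sub_s eb55
  have ih : 0 ≤ q1 b55 x5 := by unfold q1; positivity
  have hp : (0 : ℝ) < a44 := by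
    rcases Nat.eq_zero_or_pos a44 with h | h
    · rw [h] at fb55
      have : (0 : ℝ) ≤ b55 := Nat.cast_nonneg _
      push_cast at fb55
      nlinarith [mul_self_nonneg (a45 : ℝ)]
    · exact_mod_cast h
  have e : (a44 : ℝ) * q2 a44 a45 a55 x4 x5 = (a44 * x4 + a45 * x5) ^ 2 + (x5) ^ 2 + q1 b55 x5 := by
    unfold q2 q1
    linear_combination x5 ^ 2 * fb55
  exact (mul_nonneg_iff_of_pos_left hp).1 (by rw [e]; positivity)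

noncomputable def pz3 (a33 a34 a35 a44 a45 a55 : ℕ) : Bool :=
  @Nat.rec (fun _ => Bool) false (fun b44 _ =>
  @Nat.rec (fun _ => Bool) false (fun b45 _ =>
  @Nat.rec (fun _ => Bool) false (fun b55 _ =>
  pz2 b44 b45 b55)
    (Nat.sub (Nat.mul a33 a55) (Nat.mul a35 a35)))
    (Nat.sub (Nat.mul a33 a45) (Nat.mul a34 a35)))
    (Nat.sub (Nat.mul a33 a44) (Nat.mul a34 a34))

theorem pz3_s {a33 a34 a35 a44 a45 a55 : ℕ} (H : pz3 a33 a34 a35 a44 a45 a55 = true) (x3 x4 x5 : ℝ) :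
    0 ≤ q3 a33 a34 a35 a44 a45 a55 x3 x4 x5 := by
  have H0 : fz (Nat.sub (Nat.mul a33 a44) (Nat.mul a34 a34)) (fun b44 => fz (Nat.sub (Nat.mul a33 a45) (Nat.mul a34 a35)) (fun b45 => fz (Nat.sub (Nat.mul a33 a55) (Nat.mul a35 a35)) (fun b55 => pz2 b44 b45 b55))) = true := H
  obtain ⟨b44, eb44, H1⟩ := fz_s H0
  have fb44 := sub_s eb44
  obtain ⟨b45, eb45, H2⟩ := fz_s H1
  have fb45 := sub_s eb45
  obtain ⟨b55, eb55, H3⟩ := fz_s H2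
  have fb55 := sub_s eb55
  have ih := pz2_s H3 x4 x5
  have hp : (0 : ℝ) < a33 := by
    rcases Nat.eq_zero_or_pos a33 with h | h
    · rw [h] at fb44
      have : (0 : ℝ) ≤ b44 := Nat.cast_nonneg _
      push_cast at fb44
      nlinarith [mul_self_nonneg (a34 : ℝ)]
    · exact_mod_cast h
  have e : (a33 : ℝ) * q3 a33 a34 a35 a44 a45 a55 x3 x4 x5 = (a33 * x3 + a34 * x4 + a35 * x5) ^ 2 + (x4 + x5) ^ 2 + q2 b44 b45 b55 x4 x5 := by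
    unfold q3 q2
    linear_combination x4 ^ 2 * fb44 + 2 * x4 * x5 * fb45 + x5 ^ 2 * fb55
  exact (mul_nonneg_iff_of_pos_left hp).1 (by rw [e]; positivity)

noncomputable def pz4 (a22 a23 a24 a25 a33 a34 a35 a44 a45 a55 : ℕ) : Bool :=
  @Nat.rec (fun _ => Bool) false (fun b33 _ =>
  @Nat.rec (fun _ => Bool) false (fun b34 _ =>
  @Nat.rec (fun _ => Bool) false (fun b35 _ =>
  @Nat.rec (fun _ => Bool) false (fun b44 _ =>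
  @Nat.rec (fun _ => Bool) false (fun b45 _ =>
  @Nat.rec (fun _ => Bool) false (fun b55 _ =>
  pz3 b33 b34 b35 b44 b45 b55)
    (Nat.sub (Nat.mul a22 a55) (Nat.mul a25 a25)))
    (Nat.sub (Nat.mul a22 a45) (Nat.mul a24 a25)))
    (Nat.sub (Nat.mul a22 a44) (Nat.mul a24 a24)))
    (Nat.sub (Nat.mul a22 a35) (Nat.mul a23 a25)))
    (Nat.sub (Nat.mul a22 a34) (Nat.mul a23 a24)))
    (Nat.sub (Nat.mul a22 a33) (Nat.mul a23 a23))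

theorem pz4_s {a22 a23 a24 a25 a33 a34 a35 a44 a45 a55 : ℕ} (H : pz4 a22 a23 a24 a25 a33 a34 a35 a44 a45 a55 = true) (x2 x3 x4 x5 : ℝ) :
    0 ≤ q4 a22 a23 a24 a25 a33 a34 a35 a44 a45 a55 x2 x3 x4 x5 := by
  have H0 : fz (Nat.sub (Nat.mul a22 a33) (Nat.mul a23 a23)) (fun b33 => fz (Nat.sub (Nat.mul a22 a34) (Nat.mul a23 a24)) (fun b34 => fz (Nat.sub (Nat.mul a22 a35) (Nat.mul a23 a25)) (fun b35 => fz (Nat.sub (Nat.mul a22 a44) (Nat.mul a24 a24)) (fun b44 => fz (Nat.sub (Nat.mul a22 a45) (Nat.mul a24 a25)) (fun b45 => fz (Nat.sub (Nat.mul a22 a55) (Nat.mul a25 a25)) (fun b55 => pz3 b33 b34 b35 b44 b45 b55)))))) = true := H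
  obtain ⟨b33, eb33, H1⟩ := fz_s H0
  have fb33 := sub_s eb33
  obtain ⟨b34, eb34, H2⟩ := fz_s H1
  have fb34 := sub_s eb34
  obtain ⟨b35, eb35, H3⟩ := fz_s H2
  have fb35 := sub_s eb35
  obtain ⟨b44, eb44, H4⟩ := fz_s H3
  have fb44 := sub_s eb44
  obtain ⟨b45, eb45, H5⟩ := fz_s H4
  have fb45 := sub_s eb45
  obtain ⟨b55, eb55, H6⟩ := fz_s H5
  have fb55 := sub_s eb55
  have ih := pz3_s H6 x3 x4 x5
  have hp : (0 : ℝ) < a22 := by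
    rcases Nat.eq_zero_or_pos a22 with h | h
    · rw [h] at fb33
      have : (0 : ℝ) ≤ b33 := Nat.cast_nonneg _
      push_cast at fb33
      nlinarith [mul_self_nonneg (a23 : ℝ)]
    · exact_mod_cast h
  have e : (a22 : ℝ) * q4 a22 a23 a24 a25 a33 a34 a35 a44 a45 a55 x2 x3 x4 x5 = (a22 * x2 + a23 * x3 + a24 * x4 + a25 * x5) ^ 2 + (x3 + x4 + x5) ^ 2 + q3 b33 b34 b35 b44 b45 b55 x3 x4 x5 := by
    unfold q4 q3
    linear_combination x3 ^ 2 * fb33 + 2 * x3 * x4 * fb34 + 2 * x3 * x5 * fb35 + x4 ^ 2 * fb44 + 2 * x4 * x5 * fb45 + x5 ^ 2 * fb55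
  exact (mul_nonneg_iff_of_pos_left hp).1 (by rw [e]; positivity)

noncomputable def pz5 (a11 a12 a13 a14 a15 a22 a23 a24 a25 a33 a34 a35 a44 a45 a55 : ℕ) : Bool :=
  @Nat.rec (fun _ => Bool) false (fun b22 _ =>
  @Nat.rec (fun _ => Bool) false (fun b23 _ =>
  @Nat.rec (fun _ => Bool) false (fun b24 _ =>
  @Nat.rec (fun _ => Bool) false (fun b25 _ =>
  @Nat.rec (fun _ => Bool) false (fun b33 _ =>
  @Nat.rec (fun _ => Bool) false (fun b34 _ =>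
  @Nat.rec (fun _ => Bool) false (fun b35 _ =>
  @Nat.rec (fun _ => Bool) false (fun b44 _ =>
  @Nat.rec (fun _ => Bool) false (fun b45 _ =>
  @Nat.rec (fun _ => Bool) false (fun b55 _ =>
  pz4 b22 b23 b24 b25 b33 b34 b35 b44 b45 b55)
    (Nat.sub (Nat.mul a11 a55) (Nat.mul a15 a15)))
    (Nat.sub (Nat.mul a11 a45) (Nat.mul a14 a15)))
    (Nat.sub (Nat.mul a11 a44) (Nat.mul a14 a14)))
    (Nat.sub (Nat.mul a11 a35) (Nat.mul a13 a15)))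
    (Nat.sub (Nat.mul a11 a34) (Nat.mul a13 a14)))
    (Nat.sub (Nat.mul a11 a33) (Nat.mul a13 a13)))
    (Nat.sub (Nat.mul a11 a25) (Nat.mul a12 a15)))
    (Nat.sub (Nat.mul a11 a24) (Nat.mul a12 a14)))
    (Nat.sub (Nat.mul a11 a23) (Nat.mul a12 a13)))
    (Nat.sub (Nat.mul a11 a22) (Nat.mul a12 a12))

theorem pz5_s {a11 a12 a13 a14 a15 a22 a23 a24 a25 a33 a34 a35 a44 a45 a55 : ℕ} (H : pz5 a11 a12 a13 a14 a15 a22 a23 a24 a25 a33 a34 a35 a44 a45 a55 = true) (x1 x2 x3 x4 x5 : ℝ) :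
    0 ≤ q5 a11 a12 a13 a14 a15 a22 a23 a24 a25 a33 a34 a35 a44 a45 a55 x1 x2 x3 x4 x5 := by
  have H0 : fz (Nat.sub (Nat.mul a11 a22) (Nat.mul a12 a12)) (fun b22 => fz (Nat.sub (Nat.mul a11 a23) (Nat.mul a12 a13)) (fun b23 => fz (Nat.sub (Nat.mul a11 a24) (Nat.mul a12 a14)) (fun b24 => fz (Nat.sub (Nat.mul a11 a25) (Nat.mul a12 a15)) (fun b25 => fz (Nat.sub (Nat.mul a11 a33) (Nat.mul a13 a13)) (fun b33 => fz (Nat.sub (Nat.mul a11 a34) (Nat.mul a13 a14)) (fun b34 => fz (Nat.sub (Nat.mul a11 a35) (Nat.mul a13 a15)) (fun b35 => fz (Nat.sub (Nat.mul a11 a44) (Nat.mul a14 a14)) (fun b44 => fz (Nat.sub (Nat.mul a11 a45) (Nat.mul a14 a15)) (fun b45 => fz (Nat.sub (Nat.mul a11 a55) (Nat.mul a15 a15)) (fun b55 => pz4 b22 b23 b24 b25 b33 b34 b35 b44 b45 b55)))))))))) = true := H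
  obtain ⟨b22, eb22, H1⟩ := fz_s H0
  have fb22 := sub_s eb22
  obtain ⟨b23, eb23, H2⟩ := fz_s H1
  have fb23 := sub_s eb23
  obtain ⟨b24, eb24, H3⟩ := fz_s H2
  have fb24 := sub_s eb24
  obtain ⟨b25, eb25, H4⟩ := fz_s H3
  have fb25 := sub_s eb25
  obtain ⟨b33, eb33, H5⟩ := fz_s H4
  have fb33 := sub_s eb33
  obtain ⟨b34, eb34, H6⟩ := fz_s H5
  have fb34 := sub_s eb34
  obtain ⟨b35, eb35, H7⟩ := fz_s H6
  have fb35 := sub_s eb35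
  obtain ⟨b44, eb44, H8⟩ := fz_s H7
  have fb44 := sub_s eb44
  obtain ⟨b45, eb45, H9⟩ := fz_s H8
  have fb45 := sub_s eb45
  obtain ⟨b55, eb55, H10⟩ := fz_s H9
  have fb55 := sub_s eb55
  have ih := pz4_s H10 x2 x3 x4 x5
  have hp : (0 : ℝ) < a11 := by
    rcases Nat.eq_zero_or_pos a11 with h | h
    · rw [h] at fb22
      have : (0 : ℝ) ≤ b22 := Nat.cast_nonneg _
      push_cast at fb22
      nlinarith [mul_self_nonneg (a12 : ℝ)]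
    · exact_mod_cast h
  have e : (a11 : ℝ) * q5 a11 a12 a13 a14 a15 a22 a23 a24 a25 a33 a34 a35 a44 a45 a55 x1 x2 x3 x4 x5 = (a11 * x1 + a12 * x2 + a13 * x3 + a14 * x4 + a15 * x5) ^ 2 + (x2 + x3 + x4 + x5) ^ 2 + q4 b22 b23 b24 b25 b33 b34 b35 b44 b45 b55 x2 x3 x4 x5 := by
    unfold q5 q4
    linear_combination x2 ^ 2 * fb22 + 2 * x2 * x3 * fb23 + 2 * x2 * x4 * fb24 + 2 * x2 * x5 * fb25 + x3 ^ 2 * fb33 + 2 * x3 * x4 * fb34 + 2 * x3 * x5 * fb35 + x4 ^ 2 * fb44 + 2 * x4 * x5 * fb45 + x5 ^ 2 * fb55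
  exact (mul_nonneg_iff_of_pos_left hp).1 (by rw [e]; positivity)

/-- test of the matrix whose upper triangle (row by row) is given by the 15 digits of `X` -/
noncomputable def pt5 (w1 w2 w3 w4 w5 w6 w7 w8 w9 w10 w11 w12 w13 w14 M X : ℕ) : Bool :=
  @Nat.rec (fun _ => Bool) false (fun a11 _ =>
  @Nat.rec (fun _ => Bool) false (fun a12 _ =>
  @Nat.rec (fun _ => Bool) false (fun a13 _ =>
  @Nat.rec (fun _ => Bool) false (fun a14 _ =>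
  @Nat.rec (fun _ => Bool) false (fun a15 _ =>
  pz5 a11 a12 a13 a14 a15
    (Nat.land (Nat.shiftRight X w5) M)
    (Nat.land (Nat.shiftRight X w6) M)
    (Nat.land (Nat.shiftRight X w7) M)
    (Nat.land (Nat.shiftRight X w8) M)
    (Nat.land (Nat.shiftRight X w9) M)
    (Nat.land (Nat.shiftRight X w10) M)
    (Nat.land (Nat.shiftRight X w11) M)
    (Nat.land (Nat.shiftRight X w12) M)
    (Nat.land (Nat.shiftRight X w13) M)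
    (Nat.shiftRight X w14))
    (Nat.succ (Nat.land (Nat.shiftRight X w4) M)))
    (Nat.succ (Nat.land (Nat.shiftRight X w3) M)))
    (Nat.succ (Nat.land (Nat.shiftRight X w2) M)))
    (Nat.succ (Nat.land (Nat.shiftRight X w1) M)))
    (Nat.succ (Nat.land X M))

/-- digit `e` of `X` in base `2 ^ w` -/
def dig (w X e : ℕ) : ℕ := X / 2 ^ (w * e) % 2 ^ w

theorem dig_eq (w X e : ℕ) : Nat.land (Nat.shiftRight X (w * e)) (2 ^ w - 1) = dig w X e := by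
  show (X >>> (w * e)) &&& (2 ^ w - 1) = _
  rw [Nat.and_two_pow_sub_one_eq_mod, Nat.shiftRight_eq_div_pow, dig]

theorem dig_zero (w X : ℕ) : Nat.land X (2 ^ w - 1) = dig w X 0 := by
  show X &&& (2 ^ w - 1) = _
  rw [Nat.and_two_pow_sub_one_eq_mod, dig]
  simp

theorem dig_top (w X e : ℕ) : Nat.shiftRight X (w * e) = X / 2 ^ (w * e) := Nat.shiftRight_eq_div_pow X (w * e)

theorem pt5_dig {w X : ℕ} (H : pt5 (w * 1) (w * 2) (w * 3) (w * 4) (w * 5) (w * 6) (w * 7) (w * 8) (w * 9) (w * 10) (w * 11) (w * 12) (w * 13) (w * 14) (2 ^ w - 1) X = true) (x1 x2 x3 x4 x5 : ℝ) :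
    0 ≤ q5 (dig w X 0) (dig w X 1) (dig w X 2) (dig w X 3) (dig w X 4) (dig w X 5) (dig w X 6) (dig w X 7) (dig w X 8) (dig w X 9) (dig w X 10) (dig w X 11) (dig w X 12) (dig w X 13) (X / 2 ^ (w * 14) : ℕ) x1 x2 x3 x4 x5 := by
  have H1 : pz5 (Nat.land X (2 ^ w - 1)) (Nat.land (Nat.shiftRight X (w * 1)) (2 ^ w - 1)) (Nat.land (Nat.shiftRight X (w * 2)) (2 ^ w - 1)) (Nat.land (Nat.shiftRight X (w * 3)) (2 ^ w - 1)) (Nat.land (Nat.shiftRight X (w * 4)) (2 ^ w - 1)) (Nat.land (Nat.shiftRight X (w * 5)) (2 ^ w - 1)) (Nat.land (Nat.shiftRight X (w * 6)) (2 ^ w - 1)) (Nat.land (Nat.shiftRight X (w * 7)) (2 ^ w - 1)) (Nat.land (Nat.shiftRight X (w * 8)) (2 ^ w - 1)) (Nat.land (Nat.shiftRight X (w * 9)) (2 ^ w - 1)) (Nat.land (Nat.shiftRight X (w * 10)) (2 ^ w - 1)) (Nat.land (Nat.shiftRight X (w * 11)) (2 ^ w - 1)) (Nat.land (Nat.shiftRight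 X (w * 12)) (2 ^ w - 1)) (Nat.land (Nat.shiftRight X (w * 13)) (2 ^ w - 1)) (Nat.shiftRight X (w * 14)) = true := H
  simp only [dig_eq] at H1
  rw [dig_zero, dig_top] at H1
  exact pz5_s H1 x1 x2 x3 x4 x5

theorem lane_step {B : ℤ} {X : ℕ} {b : ℕ} (hb : (b : ℤ) = B) {v Y : ℤ} (h : (X : ℤ) = v + B * Y) (h0 : -B < 2 * v) (h1 : 2 * v < B)
    (h2 : 2 * (X % b) < b) : v = ((X % b : ℕ) : ℤ) ∧ Y = ((X / b : ℕ) : ℤ) := by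
  have e : (X : ℤ) = ((X % b : ℕ) : ℤ) + B * ((X / b : ℕ) : ℤ) := by
    rw [← hb]
    exact_mod_cast (Nat.mod_add_div X b).symm
  have h3 : 2 * ((X % b : ℕ) : ℤ) < B := by rw [← hb]; exact_mod_cast h2
  have h4 : (0 : ℤ) ≤ ((X % b : ℕ) : ℤ) := Int.natCast_nonneg _
  generalize ((X % b : ℕ) : ℤ) = r at *
  generalize ((X / b : ℕ) : ℤ) = q at *
  have hB : 0 < B := by omega
  have : Y = q := by
    by_contra hne
    rcases lt_or_gt_of_ne hne with hl | hl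
    · have : B * (Y + 1) ≤ B * q := Int.mul_le_mul_of_nonneg_left (by omega) hB.le
      nlinarith
    · have : B * (q + 1) ≤ B * Y := Int.mul_le_mul_of_nonneg_left (by omega) hB.le
      nlinarith
  subst this
  exact ⟨by linarith, rfl⟩

/-- `Σ_{e < n} 2 ^ (w - 1) * 2 ^ (w * e)` -/
def hmask (w : ℕ) : ℕ → ℕ
  | 0 => 0
  | n + 1 => 2 ^ (w * n + (w - 1)) + hmask w n

theorem hmask_lt {w : ℕ} (hw : 0 < w) (n : ℕ) : hmask w n < 2 ^ (w * n) := by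
  induction n with
  | zero => simp [hmask]
  | succ n ih =>
    have h1 : 2 ^ (w * n) ≤ 2 ^ (w * n + (w - 1)) := Nat.pow_le_pow_right (by norm_num) (by omega)
    have h2 : 2 ^ (w * (n + 1)) = 2 * 2 ^ (w * n + (w - 1)) := by
      rw [← pow_succ']
      congr 1
      rw [Nat.mul_succ]
      omega
    rw [hmask]
    omega

theorem hmask_bit {w : ℕ} (hw : 0 < w) {n e : ℕ} (he : e < n) : (hmask w n).testBit (w * e + (w - 1)) = true := by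
  induction n with
  | zero => omega
  | succ n ih =>
    have h1 : hmask w n < 2 ^ (w * n + (w - 1)) :=
      (hmask_lt hw n).trans_le (Nat.pow_le_pow_right (by norm_num) (by omega))
    rw [hmask]
    rcases Nat.lt_succ_iff_lt_or_eq.1 he with h | h
    · have h2 : w * e + (w - 1) < w * n + (w - 1) := by
        have := Nat.mul_lt_mul_of_pos_left h hw
        omega
      rw [Nat.testBit_two_pow_add_gt h2]
      exact ih h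
    · subst h
      rw [Nat.testBit_two_pow_add_eq, Nat.testBit_lt_two_pow h1]
      rfl

theorem dig_half {w X n e : ℕ} (hw : 0 < w) (he : e < n) (h : Nat.land X (hmask w n) = 0) : 2 * dig w X e < 2 ^ w := by
  have h1 : X.testBit (w * e + (w - 1)) = false := by
    have h2 : (X &&& hmask w n).testBit (w * e + (w - 1)) = false := by
      have : X &&& hmask w n = 0 := h
      rw [this, Nat.zero_testBit]
    rwa [Nat.testBit_and, hmask_bit hw he, Bool.and_true] at h2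
  have h3 : dig w X e < 2 ^ (w - 1) := by
    refine Nat.lt_pow_two_of_testBit _ fun i hi => ?_
    rw [dig, Nat.testBit_mod_two_pow, Nat.testBit_div_two_pow]
    rcases eq_or_lt_of_le hi with hi | hi
    · rw [← hi, add_comm, h1, Bool.and_false]
    · rw [decide_eq_false (by omega), Bool.false_and]
  have h4 : 2 ^ w = 2 * 2 ^ (w - 1) := by
    rw [← pow_succ']
    congr 1
    omega
  omega

theorem dig_step {w X e : ℕ} {v Y : ℤ} (h : ((X / 2 ^ (w * e) : ℕ) : ℤ) = v + 2 ^ w * Y) (h0 : 2 * |v| < 2 ^ w)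
    (h2 : 2 * dig w X e < 2 ^ w) : ((dig w X e : ℕ) : ℤ) = v ∧ ((X / 2 ^ (w * (e + 1)) : ℕ) : ℤ) = Y := by
  have k := lane_step (B := 2 ^ w) (b := 2 ^ w) (by push_cast; rfl) h (by linarith [neg_abs_le v])
    (by linarith [le_abs_self v]) h2
  refine ⟨k.1.symm, ?_⟩
  rw [k.2, Nat.div_div_eq_div_mul, ← pow_add, Nat.mul_succ]

/-- the point test with the guard-bit check -/
noncomputable def ptc (w1 w2 w3 w4 w5 w6 w7 w8 w9 w10 w11 w12 w13 w14 M H X : ℕ) : Bool :=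
  @Nat.rec (fun _ => Bool) (pt5 w1 w2 w3 w4 w5 w6 w7 w8 w9 w10 w11 w12 w13 w14 M X) (fun _ _ => false) (Nat.land X H)

/-- the point test for lanes of `w` bits -/
noncomputable def pt (w X : ℕ) : Bool :=
  ptc (w * 1) (w * 2) (w * 3) (w * 4) (w * 5) (w * 6) (w * 7) (w * 8) (w * 9) (w * 10) (w * 11) (w * 12) (w * 13) (w * 14) (2 ^ w - 1) (hmask w 14) X

theorem pt_lane {w X : ℕ} (H : pt w X = true) {v11 v12 v13 v14 v15 v22 v23 v24 v25 v33 v34 v35 v44 v45 v55 : ℤ}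
    (hX : (X : ℤ) = v11 + 2 ^ w * (v12 + 2 ^ w * (v13 + 2 ^ w * (v14 + 2 ^ w * (v15 + 2 ^ w * (v22 + 2 ^ w * (v23 + 2 ^ w * (v24 + 2 ^ w * (v25 + 2 ^ w * (v33 + 2 ^ w * (v34 + 2 ^ w * (v35 + 2 ^ w * (v44 + 2 ^ w * (v45 + 2 ^ w * (v55)))))))))))))))
    (hv11 : 2 * |v11| < 2 ^ w) (hv12 : 2 * |v12| < 2 ^ w) (hv13 : 2 * |v13| < 2 ^ w) (hv14 : 2 * |v14| < 2 ^ w) (hv15 : 2 * |v15| < 2 ^ w) (hv22 : 2 * |v22| < 2 ^ w) (hv23 : 2 * |v23| < 2 ^ w) (hv24 : 2 * |v24| < 2 ^ w) (hv25 : 2 * |v25| < 2 ^ w) (hv33 : 2 * |v33| < 2 ^ w) (hv34 : 2 * |v34| < 2 ^ w) (hv35 : 2 * |v35| < 2 ^ w) (hv44 : 2 * |v44| < 2 ^ w) (hv45 : 2 * |v45| < 2 ^ w)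
    (x1 x2 x3 x4 x5 : ℝ) : 0 ≤ q5 v11 v12 v13 v14 v15 v22 v23 v24 v25 v33 v34 v35 v44 v45 v55 x1 x2 x3 x4 x5 := by
  have hw : 0 < w := by
    rcases Nat.eq_zero_or_pos w with h | h
    · exfalso
      subst h
      have k0 := abs_nonneg v11
      have : ∀ Y : ℕ, Nat.land Y 0 = 0 := fun Y => Nat.and_zero Y
      have H' : pz5 (Nat.land X 0) (Nat.land X 0) (Nat.land X 0) (Nat.land X 0) (Nat.land X 0) (Nat.land X 0) (Nat.land X 0)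
          (Nat.land X 0) (Nat.land X 0) (Nat.land X 0) (Nat.land X 0) (Nat.land X 0) (Nat.land X 0) (Nat.land X 0) X = true := by
        unfold pt ptc at H
        have e : Nat.land X (hmask 0 14) = 0 ∨ ∃ m, Nat.land X (hmask 0 14) = m + 1 := by
          cases Nat.land X (hmask 0 14) with
          | zero => exact Or.inl rfl
          | succ m => exact Or.inr ⟨m, rfl⟩
        rcases e with e | ⟨m, e⟩ <;> rw [e] at H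
        · exact H
        · exact absurd H (by simp)
      rw [this] at H'
      exact absurd H' (by simp [pz5])
    · exact h
  unfold pt ptc at H
  have e : Nat.land X (hmask w 14) = 0 ∨ ∃ m, Nat.land X (hmask w 14) = m + 1 := by
    cases Nat.land X (hmask w 14) with
    | zero => exact Or.inl rfl
    | succ m => exact Or.inr ⟨m, rfl⟩
  rcases e with e | ⟨m, e⟩ <;> rw [e] at H
  swap
  · exact absurd H (by simp)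
  have k := pt5_dig H x1 x2 x3 x4 x5
  have g0 : ((X / 2 ^ (w * 0) : ℕ) : ℤ) = _ := (by simp : ((X / 2 ^ (w * 0) : ℕ) : ℤ) = X).trans hX
  obtain ⟨d0, g1⟩ := dig_step g0 hv11 (dig_half hw (by norm_num : 0 < 14) e)
  obtain ⟨d1, g2⟩ := dig_step g1 hv12 (dig_half hw (by norm_num : 1 < 14) e)
  obtain ⟨d2, g3⟩ := dig_step g2 hv13 (dig_half hw (by norm_num : 2 < 14) e)
  obtain ⟨d3, g4⟩ := dig_step g3 hv14 (dig_half hw (by norm_num : 3 < 14) e)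
  obtain ⟨d4, g5⟩ := dig_step g4 hv15 (dig_half hw (by norm_num : 4 < 14) e)
  obtain ⟨d5, g6⟩ := dig_step g5 hv22 (dig_half hw (by norm_num : 5 < 14) e)
  obtain ⟨d6, g7⟩ := dig_step g6 hv23 (dig_half hw (by norm_num : 6 < 14) e)
  obtain ⟨d7, g8⟩ := dig_step g7 hv24 (dig_half hw (by norm_num : 7 < 14) e)
  obtain ⟨d8, g9⟩ := dig_step g8 hv25 (dig_half hw (by norm_num : 8 < 14) e)
  obtain ⟨d9, g10⟩ := dig_step g9 hv33 (dig_half hw (by norm_num : 9 < 14) e)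
  obtain ⟨d10, g11⟩ := dig_step g10 hv34 (dig_half hw (by norm_num : 10 < 14) e)
  obtain ⟨d11, g12⟩ := dig_step g11 hv35 (dig_half hw (by norm_num : 11 < 14) e)
  obtain ⟨d12, g13⟩ := dig_step g12 hv44 (dig_half hw (by norm_num : 12 < 14) e)
  obtain ⟨d13, g14⟩ := dig_step g13 hv45 (dig_half hw (by norm_num : 13 < 14) e)
  rw [← d0, ← d1, ← d2, ← d3, ← d4, ← d5, ← d6, ← d7, ← d8, ← d9, ← d10, ← d11, ← d12, ← d13, ← g14]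
  simpa only [Int.cast_natCast] using k

def k11 (C B : ℕ) : ℕ := C ^ 0 * B ^ 0 + C ^ 1 * B ^ 1 + C ^ 2 * B ^ 2 + C ^ 3 * B ^ 3 + C ^ 4 * B ^ 4 + C ^ 2 * B ^ 5 + C ^ 3 * B ^ 6 + C ^ 4 * B ^ 7 + C ^ 5 * B ^ 8 + C ^ 4 * B ^ 9 + C ^ 5 * B ^ 10 + C ^ 6 * B ^ 11 + C ^ 6 * B ^ 12 + C ^ 7 * B ^ 13 + C ^ 8 * B ^ 14
def k21 (C B : ℕ) : ℕ := C ^ 0 * B ^ 1 + C ^ 1 * B ^ 2 + C ^ 2 * B ^ 3 + C ^ 3 * B ^ 4 + 2 * C ^ 1 * B ^ 5 + 2 * C ^ 2 * B ^ 6 + 2 * C ^ 3 * B ^ 7 + 2 * C ^ 4 * B ^ 8 + 2 * C ^ 3 * B ^ 9 + 2 * C ^ 4 * B ^ 10 + 2 * C ^ 5 * B ^ 11 + 2 * C ^ 5 * B ^ 12 + 2 * C ^ 6 * B ^ 13 + 2 * C ^ 7 * B ^ 14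
def k22 (C B : ℕ) : ℕ := C ^ 0 * B ^ 5 + C ^ 1 * B ^ 6 + C ^ 2 * B ^ 7 + C ^ 3 * B ^ 8 + C ^ 2 * B ^ 9 + C ^ 3 * B ^ 10 + C ^ 4 * B ^ 11 + C ^ 4 * B ^ 12 + C ^ 5 * B ^ 13 + C ^ 6 * B ^ 14
def k31 (C B : ℕ) : ℕ := C ^ 0 * B ^ 2 + C ^ 1 * B ^ 3 + C ^ 2 * B ^ 4 + C ^ 1 * B ^ 6 + C ^ 2 * B ^ 7 + C ^ 3 * B ^ 8 + 2 * C ^ 2 * B ^ 9 + 2 * C ^ 3 * B ^ 10 + 2 * C ^ 4 * B ^ 11 + 2 * C ^ 4 * B ^ 12 + 2 * C ^ 5 * B ^ 13 + 2 * C ^ 6 * B ^ 14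
def k32 (C B : ℕ) : ℕ := C ^ 0 * B ^ 6 + C ^ 1 * B ^ 7 + C ^ 2 * B ^ 8 + 2 * C ^ 1 * B ^ 9 + 2 * C ^ 2 * B ^ 10 + 2 * C ^ 3 * B ^ 11 + 2 * C ^ 3 * B ^ 12 + 2 * C ^ 4 * B ^ 13 + 2 * C ^ 5 * B ^ 14
def k33 (C B : ℕ) : ℕ := C ^ 0 * B ^ 9 + C ^ 1 * B ^ 10 + C ^ 2 * B ^ 11 + C ^ 2 * B ^ 12 + C ^ 3 * B ^ 13 + C ^ 4 * B ^ 14
def k41 (C B : ℕ) : ℕ := C ^ 0 * B ^ 3 + C ^ 1 * B ^ 4 + C ^ 1 * B ^ 7 + C ^ 2 * B ^ 8 + C ^ 2 * B ^ 10 + C ^ 3 * B ^ 11 + 2 * C ^ 3 * B ^ 12 + 2 * C ^ 4 * B ^ 13 + 2 * C ^ 5 * B ^ 14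
def k42 (C B : ℕ) : ℕ := C ^ 0 * B ^ 7 + C ^ 1 * B ^ 8 + C ^ 1 * B ^ 10 + C ^ 2 * B ^ 11 + 2 * C ^ 2 * B ^ 12 + 2 * C ^ 3 * B ^ 13 + 2 * C ^ 4 * B ^ 14
def k43 (C B : ℕ) : ℕ := C ^ 0 * B ^ 10 + C ^ 1 * B ^ 11 + 2 * C ^ 1 * B ^ 12 + 2 * C ^ 2 * B ^ 13 + 2 * C ^ 3 * B ^ 14
def k44 (C B : ℕ) : ℕ := C ^ 0 * B ^ 12 + C ^ 1 * B ^ 13 + C ^ 2 * B ^ 14
def k51 (C B : ℕ) : ℕ := C ^ 0 * B ^ 4 + C ^ 1 * B ^ 8 + C ^ 2 * B ^ 11 + C ^ 3 * B ^ 13 + 2 * C ^ 4 * B ^ 14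
def k52 (C B : ℕ) : ℕ := C ^ 0 * B ^ 8 + C ^ 1 * B ^ 11 + C ^ 2 * B ^ 13 + 2 * C ^ 3 * B ^ 14
def k53 (C B : ℕ) : ℕ := C ^ 0 * B ^ 11 + C ^ 1 * B ^ 13 + 2 * C ^ 2 * B ^ 14
def k54 (C B : ℕ) : ℕ := C ^ 0 * B ^ 13 + 2 * C ^ 1 * B ^ 14
def k55 (C B : ℕ) : ℕ := C ^ 0 * B ^ 14

/-- the packing weights of the 15 entries (lower triangle, row by row) -/
def kap (C B : ℕ) : List ℕ := [k11 C B, k21 C B, k22 C B, k31 C B, k32 C B, k33 C B, k41 C B, k42 C B, k43 C B, k44 C B, k51 C B, k52 C B, k53 C B, k54 C B, k55 C B]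

theorem ab_add {a b s t : ℤ} (h : |a| ≤ s) (h' : |b| ≤ t) : |a + b| ≤ s + t := (abs_add_le a b).trans (add_le_add h h')

theorem ab_mul {c a s : ℤ} (hc : 0 ≤ c) (h : |a| ≤ s) : |c * a| ≤ c * s := by
  rw [abs_mul, abs_of_nonneg hc]
  exact mul_le_mul_of_nonneg_left h hc

/-- soundness of the point test: `X` is the packed congruent matrix of `m` -/
theorem pt_s {w C X : ℕ} (H : pt w X = true) {D m11 m21 m22 m31 m32 m33 m41 m42 m43 m44 m51 m52 m53 m54 m55 : ℤ}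
    (hX : (X : ℤ) = (k11 C (2 ^ w) : ℤ) * m11 + (k21 C (2 ^ w) : ℤ) * m21 + (k22 C (2 ^ w) : ℤ) * m22 + (k31 C (2 ^ w) : ℤ) * m31 + (k32 C (2 ^ w) : ℤ) * m32 + (k33 C (2 ^ w) : ℤ) * m33 + (k41 C (2 ^ w) : ℤ) * m41 + (k42 C (2 ^ w) : ℤ) * m42 + (k43 C (2 ^ w) : ℤ) * m43 + (k44 C (2 ^ w) : ℤ) * m44 + (k51 C (2 ^ w) : ℤ) * m51 + (k52 C (2 ^ w) : ℤ) * m52 + (k53 C (2 ^ w) : ℤ) * m53 + (k54 C (2 ^ w) : ℤ) * m54 + (k55 C (2 ^ w) : ℤ) * m55)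
    (h11 : |m11| ≤ D) (h21 : |m21| ≤ D) (h22 : |m22| ≤ D) (h31 : |m31| ≤ D) (h32 : |m32| ≤ D) (h33 : |m33| ≤ D) (h41 : |m41| ≤ D) (h42 : |m42| ≤ D) (h43 : |m43| ≤ D) (h44 : |m44| ≤ D) (h51 : |m51| ≤ D) (h52 : |m52| ≤ D) (h53 : |m53| ≤ D) (h54 : |m54| ≤ D) (h55 : |m55| ≤ D)
    (hD : 2 * ((1 + C + C ^ 2 + C ^ 3 + C ^ 4 : ℤ) ^ 2 * D) < 2 ^ w) (x1 x2 x3 x4 x5 : ℝ) :
    0 ≤ PSD.q5 m11 m21 m22 m31 m32 m33 m41 m42 m43 m44 m51 m52 m53 m54 m55 x1 x2 x3 x4 x5 := by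
  have hC : (0 : ℤ) ≤ C := Int.natCast_nonneg C
  have hD0 : 0 ≤ D := (abs_nonneg _).trans h11
  have bd : ∀ {v s r : ℤ}, |v| ≤ s → (1 + C + C ^ 2 + C ^ 3 + C ^ 4 : ℤ) ^ 2 * D = s + r * D → 0 ≤ r → 2 * |v| < 2 ^ w := fun h1 h2 h3 => by
    have := mul_nonneg h3 hD0
    linarith
  have k := pt_lane H
    (v11 := m11)
    (v12 := (C : ℤ) ^ 1 * m11 + m21)
    (v13 := (C : ℤ) ^ 2 * m11 + (C : ℤ) ^ 1 * m21 + m31)
    (v14 := (C : ℤ) ^ 3 * m11 + (C : ℤ) ^ 2 * m21 + (C : ℤ) ^ 1 * m31 + m41)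
    (v15 := (C : ℤ) ^ 4 * m11 + (C : ℤ) ^ 3 * m21 + (C : ℤ) ^ 2 * m31 + (C : ℤ) ^ 1 * m41 + m51)
    (v22 := (C : ℤ) ^ 2 * m11 + 2 * (C : ℤ) ^ 1 * m21 + m22)
    (v23 := (C : ℤ) ^ 3 * m11 + 2 * (C : ℤ) ^ 2 * m21 + (C : ℤ) ^ 1 * m31 + (C : ℤ) ^ 1 * m22 + m32)
    (v24 := (C : ℤ) ^ 4 * m11 + 2 * (C : ℤ) ^ 3 * m21 + (C : ℤ) ^ 2 * m31 + (C : ℤ) ^ 1 * m41 + (C : ℤ) ^ 2 * m22 + (C : ℤ) ^ 1 * m32 + m42)
    (v25 := (C : ℤ) ^ 5 * m11 + 2 * (C : ℤ) ^ 4 * m21 + (C : ℤ) ^ 3 * m31 + (C : ℤ) ^ 2 * m41 + (C : ℤ) ^ 1 * m51 + (C : ℤ) ^ 3 * m22 + (C : ℤ) ^ 2 * m32 + (C : ℤ) ^ 1 * m42 + m52)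
    (v33 := (C : ℤ) ^ 4 * m11 + 2 * (C : ℤ) ^ 3 * m21 + 2 * (C : ℤ) ^ 2 * m31 + (C : ℤ) ^ 2 * m22 + 2 * (C : ℤ) ^ 1 * m32 + m33)
    (v34 := (C : ℤ) ^ 5 * m11 + 2 * (C : ℤ) ^ 4 * m21 + 2 * (C : ℤ) ^ 3 * m31 + (C : ℤ) ^ 2 * m41 + (C : ℤ) ^ 3 * m22 + 2 * (C : ℤ) ^ 2 * m32 + (C : ℤ) ^ 1 * m42 + (C : ℤ) ^ 1 * m33 + m43)
    (v35 := (C : ℤ) ^ 6 * m11 + 2 * (C : ℤ) ^ 5 * m21 + 2 * (C : ℤ) ^ 4 * m31 + (C : ℤ) ^ 3 * m41 + (C : ℤ) ^ 2 * m51 + (C : ℤ) ^ 4 * m22 + 2 * (C : ℤ) ^ 3 * m32 + (C : ℤ) ^ 2 * m42 + (C : ℤ) ^ 1 * m52 + (C : ℤ) ^ 2 * m33 + (C : ℤ) ^ 1 * m43 + m53)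
    (v44 := (C : ℤ) ^ 6 * m11 + 2 * (C : ℤ) ^ 5 * m21 + 2 * (C : ℤ) ^ 4 * m31 + 2 * (C : ℤ) ^ 3 * m41 + (C : ℤ) ^ 4 * m22 + 2 * (C : ℤ) ^ 3 * m32 + 2 * (C : ℤ) ^ 2 * m42 + (C : ℤ) ^ 2 * m33 + 2 * (C : ℤ) ^ 1 * m43 + m44)
    (v45 := (C : ℤ) ^ 7 * m11 + 2 * (C : ℤ) ^ 6 * m21 + 2 * (C : ℤ) ^ 5 * m31 + 2 * (C : ℤ) ^ 4 * m41 + (C : ℤ) ^ 3 * m51 + (C : ℤ) ^ 5 * m22 + 2 * (C : ℤ) ^ 4 * m32 + 2 * (C : ℤ) ^ 3 * m42 + (C : ℤ) ^ 2 * m52 + (C : ℤ) ^ 3 * m33 + 2 * (C : ℤ) ^ 2 * m43 + (C : ℤ) ^ 1 * m53 + (C : ℤ) ^ 1 * m44 + m54)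
    (v55 := (C : ℤ) ^ 8 * m11 + 2 * (C : ℤ) ^ 7 * m21 + 2 * (C : ℤ) ^ 6 * m31 + 2 * (C : ℤ) ^ 5 * m41 + 2 * (C : ℤ) ^ 4 * m51 + (C : ℤ) ^ 6 * m22 + 2 * (C : ℤ) ^ 5 * m32 + 2 * (C : ℤ) ^ 4 * m42 + 2 * (C : ℤ) ^ 3 * m52 + (C : ℤ) ^ 4 * m33 + 2 * (C : ℤ) ^ 3 * m43 + 2 * (C : ℤ) ^ 2 * m53 + (C : ℤ) ^ 2 * m44 + 2 * (C : ℤ) ^ 1 * m54 + m55)
    (by rw [hX]; simp only [k11, k21, k22, k31, k32, k33, k41, k42, k43, k44, k51, k52, k53, k54, k55]; push_cast; ring)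
    (bd (r := 2 * (C : ℤ) ^ 1 + 3 * (C : ℤ) ^ 2 + 4 * (C : ℤ) ^ 3 + 5 * (C : ℤ) ^ 4 + 4 * (C : ℤ) ^ 5 + 3 * (C : ℤ) ^ 6 + 2 * (C : ℤ) ^ 7 + 1 * (C : ℤ) ^ 8) h11 (by ring) (by positivity))
    (bd (r := 1 * (C : ℤ) ^ 1 + 3 * (C : ℤ) ^ 2 + 4 * (C : ℤ) ^ 3 + 5 * (C : ℤ) ^ 4 + 4 * (C : ℤ) ^ 5 + 3 * (C : ℤ) ^ 6 + 2 * (C : ℤ) ^ 7 + 1 * (C : ℤ) ^ 8) (ab_add (ab_mul (by positivity) h11) h21) (by ring) (by positivity))
    (bd (r := 1 * (C : ℤ) ^ 1 + 2 * (C : ℤ) ^ 2 + 4 * (C : ℤ) ^ 3 + 5 * (C : ℤ) ^ 4 + 4 * (C : ℤ) ^ 5 + 3 * (C : ℤ) ^ 6 + 2 * (C : ℤ) ^ 7 + 1 * (C : ℤ) ^ 8) (ab_add (ab_add (ab_mul (by positivity) h11) (ab_mul (by positivity) h21)) h31) (by ring) (by positivity))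
    (bd (r := 1 * (C : ℤ) ^ 1 + 2 * (C : ℤ) ^ 2 + 3 * (C : ℤ) ^ 3 + 5 * (C : ℤ) ^ 4 + 4 * (C : ℤ) ^ 5 + 3 * (C : ℤ) ^ 6 + 2 * (C : ℤ) ^ 7 + 1 * (C : ℤ) ^ 8) (ab_add (ab_add (ab_add (ab_mul (by positivity) h11) (ab_mul (by positivity) h21)) (ab_mul (by positivity) h31)) h41) (by ring) (by positivity))
    (bd (r := 1 * (C : ℤ) ^ 1 + 2 * (C : ℤ) ^ 2 + 3 * (C : ℤ) ^ 3 + 4 * (C : ℤ) ^ 4 + 4 * (C : ℤ) ^ 5 + 3 * (C : ℤ) ^ 6 + 2 * (C : ℤ) ^ 7 + 1 * (C : ℤ) ^ 8) (ab_add (ab_add (ab_add (ab_add (ab_mul (by positivity) h11) (ab_mul (by positivity) h21)) (ab_mul (by positivity) h31)) (ab_mul (by positivity) h41)) h51) (by ring) (by positivity))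
    (bd (r := 2 * (C : ℤ) ^ 2 + 4 * (C : ℤ) ^ 3 + 5 * (C : ℤ) ^ 4 + 4 * (C : ℤ) ^ 5 + 3 * (C : ℤ) ^ 6 + 2 * (C : ℤ) ^ 7 + 1 * (C : ℤ) ^ 8) (ab_add (ab_add (ab_mul (by positivity) h11) (ab_mul (by positivity) h21)) h22) (by ring) (by positivity))
    (bd (r := 1 * (C : ℤ) ^ 2 + 3 * (C : ℤ) ^ 3 + 5 * (C : ℤ) ^ 4 + 4 * (C : ℤ) ^ 5 + 3 * (C : ℤ) ^ 6 + 2 * (C : ℤ) ^ 7 + 1 * (C : ℤ) ^ 8) (ab_add (ab_add (ab_add (ab_add (ab_mul (by positivity) h11) (ab_mul (by positivity) h21)) (ab_mul (by positivity) h31)) (ab_mul (by positivity) h22)) h32) (by ring) (by positivity))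
    (bd (r := 1 * (C : ℤ) ^ 2 + 2 * (C : ℤ) ^ 3 + 4 * (C : ℤ) ^ 4 + 4 * (C : ℤ) ^ 5 + 3 * (C : ℤ) ^ 6 + 2 * (C : ℤ) ^ 7 + 1 * (C : ℤ) ^ 8) (ab_add (ab_add (ab_add (ab_add (ab_add (ab_add (ab_mul (by positivity) h11) (ab_mul (by positivity) h21)) (ab_mul (by positivity) h31)) (ab_mul (by positivity) h41)) (ab_mul (by positivity) h22)) (ab_mul (by positivity) h32)) h42) (by ring) (by positivity))
    (bd (r := 1 * (C : ℤ) ^ 2 + 2 * (C : ℤ) ^ 3 + 3 * (C : ℤ) ^ 4 + 3 * (C : ℤ) ^ 5 + 3 * (C : ℤ) ^ 6 + 2 * (C : ℤ) ^ 7 + 1 * (C : ℤ) ^ 8) (ab_add (ab_add (ab_add (ab_add (ab_add (ab_add (ab_add (ab_add (ab_mul (by positivity) h11) (ab_mul (by positivity) h21)) (ab_mul (by positivity) h31)) (ab_mul (by positivity) h41)) (ab_mul (by positivity) h51)) (ab_mul (by positivity) h22)) (ab_mul (by positivity) h32)) (ab_mul (by positivity) h42))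 h52) (by ring) (by positivity))
    (bd (r := 2 * (C : ℤ) ^ 3 + 4 * (C : ℤ) ^ 4 + 4 * (C : ℤ) ^ 5 + 3 * (C : ℤ) ^ 6 + 2 * (C : ℤ) ^ 7 + 1 * (C : ℤ) ^ 8) (ab_add (ab_add (ab_add (ab_add (ab_add (ab_mul (by positivity) h11) (ab_mul (by positivity) h21)) (ab_mul (by positivity) h31)) (ab_mul (by positivity) h22)) (ab_mul (by positivity) h32)) h33) (by ring) (by positivity))
    (bd (r := 1 * (C : ℤ) ^ 3 + 3 * (C : ℤ) ^ 4 + 3 * (C : ℤ) ^ 5 + 3 * (C : ℤ) ^ 6 + 2 * (C : ℤ) ^ 7 + 1 * (C : ℤ) ^ 8) (ab_add (ab_add (ab_add (ab_add (ab_add (ab_add (ab_add (ab_add (ab_mul (by positivity) h11) (ab_mul (by positivity) h21)) (ab_mul (by positivity) h31)) (ab_mul (by positivity) h41)) (ab_mul (by positivity) h22)) (ab_mul (by positivity) h32)) (ab_mul (by positivity) h42)) (ab_mul (by positivity) h33)) h43) (by ring) (by positivity))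
    (bd (r := 1 * (C : ℤ) ^ 3 + 2 * (C : ℤ) ^ 4 + 2 * (C : ℤ) ^ 5 + 2 * (C : ℤ) ^ 6 + 2 * (C : ℤ) ^ 7 + 1 * (C : ℤ) ^ 8) (ab_add (ab_add (ab_add (ab_add (ab_add (ab_add (ab_add (ab_add (ab_add (ab_add (ab_add (ab_mul (by positivity) h11) (ab_mul (by positivity) h21)) (ab_mul (by positivity) h31)) (ab_mul (by positivity) h41)) (ab_mul (by positivity) h51)) (ab_mul (by positivity) h22)) (ab_mul (by positivity) h32)) (ab_mul (by positivity) h42)) (ab_mul (by positivity) h52)) (ab_mul (by positivity) h33)) (ab_mul (by positivity) h43)) h53) (by ring) (by positivity))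
    (bd (r := 2 * (C : ℤ) ^ 4 + 2 * (C : ℤ) ^ 5 + 2 * (C : ℤ) ^ 6 + 2 * (C : ℤ) ^ 7 + 1 * (C : ℤ) ^ 8) (ab_add (ab_add (ab_add (ab_add (ab_add (ab_add (ab_add (ab_add (ab_add (ab_mul (by positivity) h11) (ab_mul (by positivity) h21)) (ab_mul (by positivity) h31)) (ab_mul (by positivity) h41)) (ab_mul (by positivity) h22)) (ab_mul (by positivity) h32)) (ab_mul (by positivity) h42)) (ab_mul (by positivity) h33)) (ab_mul (by positivity) h43)) h44) (by ring) (by positivity))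
    (bd (r := 1 * (C : ℤ) ^ 4 + 1 * (C : ℤ) ^ 5 + 1 * (C : ℤ) ^ 6 + 1 * (C : ℤ) ^ 7 + 1 * (C : ℤ) ^ 8) (ab_add (ab_add (ab_add (ab_add (ab_add (ab_add (ab_add (ab_add (ab_add (ab_add (ab_add (ab_add (ab_add (ab_mul (by positivity) h11) (ab_mul (by positivity) h21)) (ab_mul (by positivity) h31)) (ab_mul (by positivity) h41)) (ab_mul (by positivity) h51)) (ab_mul (by positivity) h22)) (ab_mul (by positivity) h32)) (ab_mul (by positivity) h42)) (ab_mul (by positivity) h52)) (ab_mul (by positivity) h33)) (ab_mul (by positivity) h43)) (ab_mul (by positivity) h53)) (ab_mul (by positivity) h44)) h54) (by ring) (by positivity))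
    (x1 - C * x2) (x2 - C * x3) (x3 - C * x4) (x4 - C * x5) x5
  refine le_of_le_of_eq k ?_
  unfold q5 PSD.q5
  push_cast
  ring

/-- `ptk w k = k (pt w)` with the constants evaluated once -/
noncomputable def ptk (w : ℕ) (k : (ℕ → Bool) → Bool) : Bool :=
  @Nat.rec (fun _ => Bool) false (fun w1 _ =>
  @Nat.rec (fun _ => Bool) false (fun w2 _ =>
  @Nat.rec (fun _ => Bool) false (fun w3 _ =>
  @Nat.rec (fun _ => Bool) false (fun w4 _ =>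
  @Nat.rec (fun _ => Bool) false (fun w5 _ =>
  @Nat.rec (fun _ => Bool) false (fun w6 _ =>
  @Nat.rec (fun _ => Bool) false (fun w7 _ =>
  @Nat.rec (fun _ => Bool) false (fun w8 _ =>
  @Nat.rec (fun _ => Bool) false (fun w9 _ =>
  @Nat.rec (fun _ => Bool) false (fun w10 _ =>
  @Nat.rec (fun _ => Bool) false (fun w11 _ =>
  @Nat.rec (fun _ => Bool) false (fun w12 _ =>
  @Nat.rec (fun _ => Bool) false (fun w13 _ =>
  @Nat.rec (fun _ => Bool) false (fun w14 _ =>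
  @Nat.rec (fun _ => Bool) false (fun M _ =>
  @Nat.rec (fun _ => Bool) false (fun H _ =>
  k (ptc w1 w2 w3 w4 w5 w6 w7 w8 w9 w10 w11 w12 w13 w14 M H))
    (Nat.succ (hmask w 14)))
    (Nat.succ (2 ^ w - 1)))
    (Nat.succ (w * 14)))
    (Nat.succ (w * 13)))
    (Nat.succ (w * 12)))
    (Nat.succ (w * 11)))
    (Nat.succ (w * 10)))
    (Nat.succ (w * 9)))
    (Nat.succ (w * 8)))
    (Nat.succ (w * 7)))
    (Nat.succ (w * 6)))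
    (Nat.succ (w * 5)))
    (Nat.succ (w * 4)))
    (Nat.succ (w * 3)))
    (Nat.succ (w * 2)))
    (Nat.succ (w * 1))

theorem ptk_eq (w : ℕ) (k : (ℕ → Bool) → Bool) : ptk w k = k (pt w) := rfl

end Crest.Agent.BSp
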