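import Crest.Agent.Lib.BSp.Conv
import Crest.Agent.Lib.BSp.Poly

/-! # Lib/BSp/Ten (helper36): integer axes (degree `d`, knots `t / Q`) and tensor control values of nested integer lists. -/

set_option autoImplicit false

namespace Crest.Agent.BSp

/-- knot function of a list (constant after the end) -/
def kf : List ℤ → ℕ → ℤ
  | [], _ => 0
  | [a], _ => a
  | a :: _ :: _, 0 => a
  | _ :: b :: l, j + 1 => kf (b :: l) j

def srt : List ℤ → Bool
  | a :: b :: l => decide (a ≤ b) && srt (b :: l)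
  | _ => true

theorem kf_zero (a : ℤ) (l : List ℤ) : kf (a :: l) 0 = a := by cases l <;> rfl

theorem kf_succ : ∀ (t : List ℤ), srt t = true → ∀ j, kf t j ≤ kf t (j + 1)
  | [], _, _ => le_rfl
  | [_], _, _ => le_rfl
  | a :: b :: l, h, j => by
    simp only [srt, Bool.and_eq_true, decide_eq_true_eq] at h
    rcases j with _ | j
    · rw [kf_zero, kf, kf_zero]; exact h.1
    · exact kf_succ (b :: l) h.2 j

/-- list form of `cs` (with carry) -/
def csl (u : ℤ) : ℤ → List ℤ → List ℤ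
  | p, [] => [u * p]
  | p, a :: l => (a + u * p) :: csl u a l

/-- elementary symmetric functions of a list -/
def esy : List ℤ → List ℤ
  | [] => [1]
  | u :: l => csl u 0 (esy l)

theorem csl_succ (u : ℤ) (l : List ℤ) (p : ℤ) (k : ℕ) :
    (csl u p l).getD (k + 1) 0 = l.getD (k + 1) 0 + u * l.getD k 0 := by
  induction l generalizing p k with
  | nil => simp [csl]
  | cons a l ih =>
    rcases k with _ | k
    · cases l <;> simp [csl]
    · simpa [csl] using ih a k

theorem csl_get (u : ℤ) (l : List ℤ) : (fun k => (csl u 0 l).getD k 0) = cs u fun k => l.getD k 0 := by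
  funext k
  rcases k with _ | k
  · cases l <;> simp [csl, cs]
  · rw [csl_succ, cs]

theorem esy_get (t : ℕ → ℤ) (i m : ℕ) : (fun k => (esy ((List.range' i m).map t)).getD k 0) = wn t i m dl := by
  induction m generalizing i with
  | zero => funext k; rcases k with _ | k <;> simp [esy, wn, dl]
  | succ m ih => rw [List.range'_succ, List.map_cons, esy, csl_get, ih, wn]

/-- an axis: degree `d`, knots `t / Q`, common multiple `L` of the binomials -/
structure Ax where
  d : ℕ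
  Q : ℕ
  L : ℕ
  t : List ℤ

def Ax.ok (A : Ax) : Bool :=
  decide (0 < A.d) && decide (0 < A.Q) && decide (0 < A.L) && srt A.t &&
    (List.range (A.d + 1)).all fun k => A.L % A.d.choose k == 0

/-- scale of the `k`-th weight -/
def Ax.sc (A : Ax) (k : ℕ) : ℕ := A.L / A.d.choose k * A.Q ^ (A.d - k)

def scl (f : ℕ → ℕ) : ℕ → List ℤ → List ℤ
  | _, [] => []
  | k, a :: l => (f k : ℤ) * a :: scl f (k + 1) l

/-- integer weights of window `i`: `(L / choose d k) * Q ^ (d - k) * E_k (t i, …, t (i + d - 1))` -/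
def Ax.w (A : Ax) (i : ℕ) : List ℤ := scl A.sc 0 (esy ((List.range' i A.d).map (kf A.t)))

/-- the windows `a ≤ i < b` cover `x` -/
def Ax.In (A : Ax) (x : ℝ) (a b : ℕ) : Prop :=
  a + A.d + 1 ≤ b ∧ (kf A.t (a + A.d - 1) : ℝ) ≤ A.Q * x ∧ A.Q * x ≤ (kf A.t (b - 1) : ℝ)

theorem scl_get (f : ℕ → ℕ) (l : List ℤ) (j k : ℕ) : (scl f j l).getD k 0 = f (j + k) * l.getD k 0 := by
  induction l generalizing j k with
  | nil => simp [scl]
  | cons a l ih =>
    rcases k with _ | k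
    · simp [scl]
    · have := ih (j + 1) k
      rw [show j + 1 + k = j + (k + 1) by omega] at this
      simpa [scl] using this

/-- split at the knot of index `m` (needs `a + d ≤ m`, `m + 2 ≤ b`): windows `[a, m + 1)` or `[m + 1 - d, b)` -/
theorem Ax.In_split (A : Ax) {x : ℝ} {a b : ℕ} (hx : A.In x a b) (m : ℕ) (h1 : a + A.d ≤ m) (h2 : m + 2 ≤ b) :
    A.In x a (m + 1) ∨ A.In x (m + 1 - A.d) b := by
  obtain ⟨-, e1, e2⟩ := hx
  rcases le_total (A.Q * x) (kf A.t m : ℝ) with h | h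
  · exact .inl ⟨by omega, e1, by simpa using h⟩
  · exact .inr ⟨by omega, by rwa [show m + 1 - A.d + A.d - 1 = m by omega], e2⟩

/-- entry point: `lo ≤ x ≤ hi` with rational ends -/
theorem Ax.In_of (A : Ax) {x : ℝ} {a b : ℕ} (lo hi : ℚ) (h1 : (lo : ℝ) ≤ x) (h2 : x ≤ (hi : ℝ))
    (h : (decide (a + A.d + 1 ≤ b) && decide ((kf A.t (a + A.d - 1) : ℚ) ≤ A.Q * lo) &&
      decide (A.Q * hi ≤ (kf A.t (b - 1) : ℚ))) = true) : A.In x a b := by
  simp only [Bool.and_eq_true, decide_eq_true_eq] at h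
  obtain ⟨⟨e0, e1⟩, e2⟩ := h
  have f1 := (Rat.cast_le (K := ℝ)).2 e1
  have f2 := (Rat.cast_le (K := ℝ)).2 e2
  push_cast at f1 f2
  have hQ : (0 : ℝ) ≤ A.Q := Nat.cast_nonneg _
  exact ⟨e0, f1.trans (mul_le_mul_of_nonneg_left h1 hQ), (mul_le_mul_of_nonneg_left h2 hQ).trans f2⟩

/-- real weights of an integer list -/
def rl (w : List ℤ) : ℕ → ℝ := fun k => (w.getD k 0 : ℤ)

theorem Ax.conv (A : Ax) (hA : A.ok = true) {x : ℝ} {a b : ℕ} (hx : A.In x a b) {P : (ℕ → ℝ) → Prop} (hP : Cv P)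
    (h : ∀ i, a ≤ i → i < b → P (rl (A.w i))) :
    ∃ w, P w ∧ ∀ k ≤ A.d, w k = (A.L * A.Q ^ A.d : ℝ) * x ^ k := by
  simp only [Ax.ok, Bool.and_eq_true, decide_eq_true_eq, List.all_eq_true, List.mem_range, beq_iff_eq] at hA
  obtain ⟨⟨⟨⟨hd, -⟩, -⟩, hs⟩, hL⟩ := hA
  obtain ⟨hb, h1, h2⟩ := hx
  have hm : Monotone fun j => (kf A.t j : ℝ) :=
    monotone_nat_of_le_succ fun j => Int.cast_le.2 (kf_succ _ hs j)
  have hP' : Cv fun w => P fun k => (A.sc k : ℝ) * w k := fun u v l h0 h1 pu pv => by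
    have := hP _ _ l h0 h1 pu pv
    convert this using 1
    funext k
    simp only [Pi.add_apply, Pi.smul_apply, smul_eq_mul]
    ring
  have := bsp_conv hP' hm (e := a + A.d - 1) (n := b - (a + A.d + 1)) (d := A.d) h1
    (by rwa [show a + A.d - 1 + (b - (a + A.d + 1)) + 1 = b - 1 by omega]) (by omega) fun i hi hj => by
      have := h i (by omega) (by omega)
      convert this using 1
      funext k
      have e := wn_map (Int.castRingHom ℝ) (kf A.t) i A.d dl k
      rw [dl_map, ← esy_get] at e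
      simp only [rl, Ax.w, scl_get, zero_add, Int.cast_mul, Int.cast_natCast]
      congr 1
      exact e.symm
  refine ⟨_, this, fun k hk => ?_⟩
  have e1 : ((A.L / A.d.choose k : ℕ) : ℝ) * (A.d.choose k : ℝ) = A.L := by
    rw [← Nat.cast_mul, Nat.div_mul_cancel (Nat.dvd_of_mod_eq_zero (hL k (by omega)))]
  have e2 : (A.Q : ℝ) ^ (A.d - k) * A.Q ^ k = A.Q ^ A.d := by rw [← pow_add, Nat.sub_add_cancel hk]
  simp only [Ax.sc, Nat.cast_mul, Nat.cast_pow, mul_pow]
  rw [← e1, ← e2]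
  ring

theorem Ax.pos (A : Ax) (hA : A.ok = true) : (0 : ℝ) < A.L * A.Q ^ A.d := by
  simp only [Ax.ok, Bool.and_eq_true, decide_eq_true_eq] at hA
  obtain ⟨⟨⟨⟨-, hQ⟩, hL⟩, -⟩, -⟩ := hA
  positivity

section gen
variable {α : Type}

/-- `∑ w k * f (l k)`, real weights -/
def dw (f : α → ℝ) : (ℕ → ℝ) → List α → ℝ
  | _, [] => 0
  | w, a :: l => w 0 * f a + dw f (fun k => w (k + 1)) l

/-- `∑ w k * f (l k)`, integer weights -/
def di (f : α → ℤ) : List ℤ → List α → ℤ
  | w :: ws, a :: l => w * f a + di f ws l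
  | _, _ => 0

theorem dw_zero (f : α → ℝ) (l : List α) : dw f (fun _ => 0) l = 0 := by
  induction l with
  | nil => rfl
  | cons a l ih => simp [dw, ih]

theorem di_cast (f : α → ℤ) (w : List ℤ) (l : List α) : (di f w l : ℝ) = dw (fun a => (f a : ℝ)) (rl w) l := by
  induction l generalizing w with
  | nil => cases w <;> simp [di, dw]
  | cons a l ih =>
    rcases w with _ | ⟨c, w⟩
    · have : rl [] = fun _ => 0 := by funext k; simp [rl]
      rw [this, dw_zero]; simp [di]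
    · have : (fun k => rl (c :: w) (k + 1)) = rl w := by funext k; simp [rl]
      rw [di, dw, this, ← ih]; simp [rl]

theorem dw_add (f : α → ℝ) (u v : ℕ → ℝ) (l : List α) : dw f (u + v) l = dw f u l + dw f v l := by
  induction l generalizing u v with
  | nil => simp [dw]
  | cons a l ih =>
    have := ih (fun k => u (k + 1)) fun k => v (k + 1)
    simp only [dw, Pi.add_apply]
    rw [show (fun k => u (k + 1) + v (k + 1)) = (fun k => u (k + 1)) + fun k => v (k + 1) from rfl, this]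
    ring

theorem dw_smul (f : α → ℝ) (c : ℝ) (u : ℕ → ℝ) (l : List α) : dw f (c • u) l = c * dw f u l := by
  induction l generalizing u with
  | nil => simp [dw]
  | cons a l ih =>
    have := ih fun k => u (k + 1)
    simp only [dw, Pi.smul_apply]
    rw [show (fun k => c • u (k + 1)) = c • fun k => u (k + 1) from rfl, this, smul_eq_mul]
    ring

theorem dw_addf (f g : α → ℝ) (u : ℕ → ℝ) (l : List α) : dw (f + g) u l = dw f u l + dw g u l := by
  induction l generalizing u with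
  | nil => simp [dw]
  | cons a l ih => simp only [dw, ih, Pi.add_apply]; ring

theorem dw_smulf (f : α → ℝ) (c : ℝ) (u : ℕ → ℝ) (l : List α) : dw (c • f) u l = c * dw f u l := by
  induction l generalizing u with
  | nil => simp [dw]
  | cons a l ih => simp only [dw, ih, Pi.smul_apply, smul_eq_mul]; ring

theorem dw_congr {f g : α → ℝ} (u : ℕ → ℝ) {l : List α} (h : ∀ a ∈ l, f a = g a) : dw f u l = dw g u l := by
  induction l generalizing u with
  | nil => rfl
  | cons a l ih => rw [dw, dw, h a (by simp), ih _ fun b hb => h b (by simp [hb])]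

theorem dw_hv (f : α → ℝ) (x : ℝ) {d : ℕ} {l : List α} (hl : l.length ≤ d + 1) {C : ℝ} {w : ℕ → ℝ}
    (hw : ∀ k ≤ d, w k = C * x ^ k) : dw f w l = C * hv f x l := by
  induction l generalizing d C w with
  | nil => simp [dw, hv]
  | cons a l ih =>
    rw [dw, hv, hw 0 (by omega)]
    rcases d with _ | d
    · have : l = [] := List.length_eq_zero_iff.1 (by simpa using hl)
      simp [this, dw, hv]
    · rw [ih (d := d) (C := C * x) (by simpa using hl) fun k hk => by rw [hw (k + 1) (by omega)]; ring]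
      ring

/-- `Φ` is linear in the evaluation functional and only looks at objects satisfying `p` -/
structure Lf (p : α → Prop) (Φ : (α → ℝ) → ℝ) : Prop where
  add : ∀ f g, Φ (f + g) = Φ f + Φ g
  smul : ∀ (c : ℝ) f, Φ (c • f) = c * Φ f
  congr : ∀ f g, (∀ a, p a → f a = g a) → Φ f = Φ g

/-- one tensor step: the outer variable -/
theorem ten_step (A : Ax) (hA : A.ok = true) {x : ℝ} {a b : ℕ} (hx : A.In x a b) {p : List α → Prop}
    (hp : ∀ l, p l → l.length ≤ A.d + 1) {Φ : (List α → ℝ) → ℝ} (hΦ : Lf p Φ) (f : α → ℝ)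
    (h : ∀ i, a ≤ i → i < b → 0 ≤ Φ (dw f (rl (A.w i)))) : 0 ≤ Φ (hv f x) := by
  obtain ⟨w, hw, e⟩ := A.conv hA hx (P := fun w => 0 ≤ Φ (dw f w))
    (cv_lin (f := fun w => Φ (dw f w))
      (fun u v => by rw [← hΦ.add]; congr 1; funext l; exact dw_add f u v l)
      (fun c u => by rw [← hΦ.smul]; congr 1; funext l; exact dw_smul f c u l)) h
  rw [hΦ.congr _ ((A.L * A.Q ^ A.d : ℝ) • hv f x) fun l hl => dw_hv f x (hp l hl) e, hΦ.smul] at hw
  exact (mul_nonneg_iff_of_pos_left (A.pos hA)).1 hw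

/-- pull a functional back to the entries -/
theorem Lf.inner {p : List α → Prop} {q : α → Prop} (hq : ∀ l, p l → ∀ a ∈ l, q a) {Φ : (List α → ℝ) → ℝ}
    (hΦ : Lf p Φ) (w : ℕ → ℝ) : Lf q fun f => Φ (dw f w) where
  add f g := by rw [← hΦ.add]; congr 1; funext l; exact dw_addf f g w l
  smul c f := by rw [← hΦ.smul]; congr 1; funext l; exact dw_smulf f c w l
  congr f g h := hΦ.congr _ _ fun l hl => dw_congr w fun a ha => h a (hq l hl a ha)
end gen

abbrev L1 : Type := List ℤ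
abbrev L2 : Type := List (List ℤ)
abbrev L3 : Type := List (List (List ℤ))
abbrev hn {α : Type} (f : α → ℝ) (x : ℝ) : List α → ℝ := hv f x

/-- control values -/
def c1 (a : List ℤ) : P1 → ℤ := di id a
def c2 (a b : List ℤ) : P2 → ℤ := di (c1 b) a
def c3 (a b c : List ℤ) : P3 → ℤ := di (c2 b c) a

/-- degree bounds -/
def fit1 (d : ℕ) (l : P1) : Bool := decide (l.length ≤ d + 1)
def fit2 (d e : ℕ) (l : P2) : Bool := decide (l.length ≤ d + 1) && l.all (fit1 e)
def fit3 (d e f : ℕ) (l : P3) : Bool := decide (l.length ≤ d + 1) && l.all (fit2 e f)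

theorem ten1 (A : Ax) (hA : A.ok = true) {x : ℝ} {a a' : ℕ} (hx : A.In x a a') {Φ : (P1 → ℝ) → ℝ}
    (hΦ : Lf (fun l => fit1 A.d l = true) Φ)
    (h : ∀ i, a ≤ i → i < a' → 0 ≤ Φ fun l => (c1 (A.w i) l : ℝ)) : 0 ≤ Φ (ev1 x) :=
  ten_step A hA hx (fun l hl => by simpa [fit1] using hl) hΦ _ fun i h1 h2 => by
    have := h i h1 h2
    simp only [c1, di_cast] at this
    exact this

theorem ten2 (A B : Ax) (hA : A.ok = true) (hB : B.ok = true) {x y : ℝ} {a a' b b' : ℕ} (hx : A.In x a a')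
    (hy : B.In y b b') {Φ : (P2 → ℝ) → ℝ} (hΦ : Lf (fun l => fit2 A.d B.d l = true) Φ)
    (h : ∀ i, a ≤ i → i < a' → ∀ j, b ≤ j → j < b' → 0 ≤ Φ fun l => (c2 (A.w i) (B.w j) l : ℝ)) :
    0 ≤ Φ (ev2 x y) :=
  ten_step A hA hx (fun l hl => by simp only [fit2, Bool.and_eq_true, decide_eq_true_eq] at hl; exact hl.1) hΦ _
    fun i h1 h2 => ten1 B hB hy
      (hΦ.inner (fun l hl => by simp only [fit2, Bool.and_eq_true, List.all_eq_true] at hl; exact hl.2) _)
      fun j h3 h4 => by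
        have := h i h1 h2 j h3 h4
        simp only [c2, di_cast] at this
        exact this

theorem ten3 (A B C : Ax) (hA : A.ok = true) (hB : B.ok = true) (hC : C.ok = true) {x y z : ℝ} {a a' b b' c c' : ℕ}
    (hx : A.In x a a') (hy : B.In y b b') (hz : C.In z c c') {Φ : (P3 → ℝ) → ℝ}
    (hΦ : Lf (fun l => fit3 A.d B.d C.d l = true) Φ)
    (h : ∀ i, a ≤ i → i < a' → ∀ j, b ≤ j → j < b' → ∀ k, c ≤ k → k < c' →
      0 ≤ Φ fun l => (c3 (A.w i) (B.w j) (C.w k) l : ℝ)) : 0 ≤ Φ (ev3 x y z) :=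
  ten_step A hA hx (fun l hl => by simp only [fit3, Bool.and_eq_true, decide_eq_true_eq] at hl; exact hl.1) hΦ _
    fun i h1 h2 => ten2 B C hB hC hy hz
      (hΦ.inner (fun l hl => by simp only [fit3, Bool.and_eq_true, List.all_eq_true] at hl; exact hl.2) _)
      fun j h3 h4 k h5 h6 => by
        have := h i h1 h2 j h3 h4 k h5 h6
        simp only [c3, di_cast] at this
        exact this

/-- `∑ k, τ (T k) * ∑ e, ξ e * σ (S k e)` -/
def frm (τ : P3 → ℝ) (σ : P2 → ℝ) (ξ : ℕ → ℝ) : List (P3 × List P2) → ℝ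
  | [] => 0
  | p :: M => τ p.1 * dw σ ξ p.2 + frm τ σ ξ M

theorem frm_lfT {p : P3 → Prop} (σ : P2 → ℝ) (ξ : ℕ → ℝ) {M : List (P3 × List P2)} (hM : ∀ q ∈ M, p q.1) :
    Lf p fun τ => frm τ σ ξ M := by
  induction M with
  | nil => exact ⟨fun _ _ => by simp [frm], fun _ _ => by simp [frm], fun _ _ _ => rfl⟩
  | cons q M ih =>
    have ih' := ih fun r hr => hM r (by simp [hr])
    refine ⟨fun f g => ?_, fun c f => ?_, fun f g h => ?_⟩
    · simp only [frm, ih'.add, Pi.add_apply]; ring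
    · simp only [frm, ih'.smul, Pi.smul_apply, smul_eq_mul]; ring
    · simp only [frm]; rw [h _ (hM q (by simp)), ih'.congr f g h]

theorem frm_lfS {p : P2 → Prop} (τ : P3 → ℝ) (ξ : ℕ → ℝ) {M : List (P3 × List P2)} (hM : ∀ q ∈ M, ∀ S ∈ q.2, p S) :
    Lf p fun σ => frm τ σ ξ M := by
  induction M with
  | nil => exact ⟨fun _ _ => by simp [frm], fun _ _ => by simp [frm], fun _ _ _ => rfl⟩
  | cons q M ih =>
    have ih' := ih fun r hr => hM r (by simp [hr])
    refine ⟨fun f g => ?_, fun c f => ?_, fun f g h => ?_⟩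
    · simp only [frm, ih'.add, dw_addf]; ring
    · simp only [frm, ih'.smul, dw_smulf]; ring
    · simp only [frm]; rw [dw_congr ξ fun S hS => h S (hM q (by simp) S hS), ih'.congr f g h]

theorem Lf.sub_mul {α : Type} {p : α → Prop} {Φ : (α → ℝ) → ℝ} (hΦ : Lf p Φ) (m : ℝ) {G : α} (hG : p G) :
    Lf p fun f => Φ f - m * f G where
  add f g := by simp only [hΦ.add, Pi.add_apply]; ring
  smul c f := by simp only [hΦ.smul, Pi.smul_apply, smul_eq_mul]; ring
  congr f g h := by rw [hΦ.congr f g h, h G hG]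

def fitT (d e f : ℕ) (M : List (P3 × List P2)) : Bool := M.all fun q => fit3 d e f q.1
def fitS (d e : ℕ) (M : List (P3 × List P2)) : Bool := M.all fun q => q.2.all (fit2 d e)

/-- hull in the two shape variables (do this first; `τ = ev3 s z P`) -/
theorem frm_S (D E : Ax) (hD : D.ok = true) (hE : E.ok = true) {u v : ℝ} {a a' b b' : ℕ} (hu : D.In u a a')
    (hw : E.In v b b') {M : List (P3 × List P2)} (hM : fitS D.d E.d M = true) (τ : P3 → ℝ) (ξ : ℕ → ℝ)
    (h : ∀ i, a ≤ i → i < a' → ∀ j, b ≤ j → j < b' → 0 ≤ frm τ (fun S => (c2 (D.w i) (E.w j) S : ℝ)) ξ M) :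
    0 ≤ frm τ (ev2 u v) ξ M :=
  ten2 D E hD hE hu hw (frm_lfS τ ξ (by simpa only [fitS, List.all_eq_true] using hM)) h

/-- hull in the three table variables, no multiplier -/
theorem frm_T (A B C : Ax) (hA : A.ok = true) (hB : B.ok = true) (hC : C.ok = true) {x y z : ℝ} {a a' b b' c c' : ℕ}
    (hx : A.In x a a') (hy : B.In y b b') (hz : C.In z c c') {M : List (P3 × List P2)}
    (hM : fitT A.d B.d C.d M = true) (σ : P2 → ℝ) (ξ : ℕ → ℝ)
    (h : ∀ i, a ≤ i → i < a' → ∀ j, b ≤ j → j < b' → ∀ k, c ≤ k → k < c' →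
      0 ≤ frm (fun T => (c3 (A.w i) (B.w j) (C.w k) T : ℝ)) σ ξ M) : 0 ≤ frm (ev3 x y z) σ ξ M :=
  ten3 A B C hA hB hC hx hy hz (frm_lfT σ ξ (by simpa only [fitT, List.all_eq_true] using hM)) h

/-- hull in the three table variables, two hypotheses `G, H ≥ 0` with multipliers `m, n ≥ 0` (functions of `ξ`, `J`, block) -/
theorem frm_TG (A B C : Ax) (hA : A.ok = true) (hB : B.ok = true) (hC : C.ok = true) {x y z : ℝ} {a a' b b' c c' : ℕ}
    (hx : A.In x a a') (hy : B.In y b b') (hz : C.In z c c') {M : List (P3 × List P2)}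
    (hM : fitT A.d B.d C.d M = true) (σ : P2 → ℝ) (ξ : ℕ → ℝ) {G H : P3} (fG : fit3 A.d B.d C.d G = true)
    (fH : fit3 A.d B.d C.d H = true) (hG : 0 ≤ ev3 x y z G) (hH : 0 ≤ ev3 x y z H) {m n : ℝ} (hm : 0 ≤ m) (hn0 : 0 ≤ n)
    (h : ∀ i, a ≤ i → i < a' → ∀ j, b ≤ j → j < b' → ∀ k, c ≤ k → k < c' →
      0 ≤ frm (fun T => (c3 (A.w i) (B.w j) (C.w k) T : ℝ)) σ ξ M - m * (c3 (A.w i) (B.w j) (C.w k) G : ℝ)
        - n * (c3 (A.w i) (B.w j) (C.w k) H : ℝ)) : 0 ≤ frm (ev3 x y z) σ ξ M := by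
  have := ten3 A B C hA hB hC hx hy hz
    (((frm_lfT σ ξ (by simpa only [fitT, List.all_eq_true] using hM)).sub_mul m fG).sub_mul n fH) h
  have h1 := mul_nonneg hm hG
  have h2 := mul_nonneg hn0 hH
  linarith

/-- one hypothesis -/
theorem frm_Tg (A B C : Ax) (hA : A.ok = true) (hB : B.ok = true) (hC : C.ok = true) {x y z : ℝ} {a a' b b' c c' : ℕ}
    (hx : A.In x a a') (hy : B.In y b b') (hz : C.In z c c') {M : List (P3 × List P2)}
    (hM : fitT A.d B.d C.d M = true) (σ : P2 → ℝ) (ξ : ℕ → ℝ) {G : P3} (fG : fit3 A.d B.d C.d G = true)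
    (hG : 0 ≤ ev3 x y z G) {m : ℝ} (hm : 0 ≤ m)
    (h : ∀ i, a ≤ i → i < a' → ∀ j, b ≤ j → j < b' → ∀ k, c ≤ k → k < c' →
      m * (c3 (A.w i) (B.w j) (C.w k) G : ℝ) ≤ frm (fun T => (c3 (A.w i) (B.w j) (C.w k) T : ℝ)) σ ξ M) :
    0 ≤ frm (ev3 x y z) σ ξ M := by
  have := ten3 A B C hA hB hC hx hy hz
    ((frm_lfT σ ξ (by simpa only [fitT, List.all_eq_true] using hM)).sub_mul m fG)
    fun i h1 h2 j h3 h4 k h5 h6 => sub_nonneg.2 (h i h1 h2 j h3 h4 k h5 h6)
  have h1 := mul_nonneg hm hG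
  linarith

/-- a block outside the domain: all control values of `G` are `≤ -1` -/
theorem out3 (A B C : Ax) (hA : A.ok = true) (hB : B.ok = true) (hC : C.ok = true) {x y z : ℝ} {a a' b b' c c' : ℕ}
    (hx : A.In x a a') (hy : B.In y b b') (hz : C.In z c c') {G : P3} (fG : fit3 A.d B.d C.d G = true) (m : ℤ)
    (h : ∀ i, a ≤ i → i < a' → ∀ j, b ≤ j → j < b' → ∀ k, c ≤ k → k < c' →
      m * c3 (A.w i) (B.w j) (C.w k) G + c3 (A.w i) (B.w j) (C.w k) [[[1]]] ≤ 0) (hm : 0 ≤ m) : ev3 x y z G < 0 := by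
  have f1 : fit3 A.d B.d C.d [[[1]]] = true := by simp [fit3, fit2, fit1]
  have l0 : Lf (fun l => fit3 A.d B.d C.d l = true) fun _ : P3 → ℝ => (0 : ℝ) :=
    ⟨fun _ _ => by simp, fun _ _ => by simp, fun _ _ _ => rfl⟩
  have := ten3 A B C hA hB hC hx hy hz ((l0.sub_mul m fG).sub_mul 1 f1) fun i h1 h2 j h3 h4 k h5 h6 => by
    have := (Int.cast_le (R := ℝ)).2 (h i h1 h2 j h3 h4 k h5 h6)
    push_cast at this
    linarith
  have e : ev3 x y z [[[1]]] = 1 := by simp [ev3, ev2, ev1, hv]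
  rw [e] at this
  by_contra hc
  have := mul_nonneg (Int.cast_nonneg (R := ℝ) hm) (not_lt.1 hc)
  linarith

end Crest.Agent.BSp
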